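import Vale.Agent.P139.H901.ExtJ

/-!
# P139 [X8] : `ExtE2` from `ExtJ` (helper607)
-/

noncomputable section

open scoped ComplexConjugate
open Complex Set MeasureTheory

namespace Vale.Agent.P139.H607

open BU H311 H745 H901 KU

variable {d K : ℕ} {w R : ℕ → ℝ} {q : ℕ → ℝ → ℂ}

theorem PhJ_eq_Sl (d l : ℕ) (w a : ℝ) (lam : ℂ) : PhJ d l w (lam + a) = Sl d l w a lam := by
  unfold PhJ Sl
  have e1 : aE l w (lam + a) = lam + a - I * w + l / 2 := by unfold aE; ring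
  have e2 : bE d l - aE l w (lam + a) - 1 = (d : ℂ) / 2 + l / 2 - (lam + a - I * w) - 1 := by
    unfold aE bE; ring
  rw [e2, e1]

theorem mJ_zero (d l : ℕ) (w a : ℝ) (lam x0 α α0 : ℂ) :
    mJ d l w (lam + a) x0 α α0 0 = fun r => α * Sl d l w a lam r := by
  funext r
  unfold mJ
  rw [PhJ_eq_Sl, zero_mul, zero_mul, add_zero]

theorem mJs_zero (d l : ℕ) (w a : ℝ) (lam x0 β β0 : ℂ) :
    mJs d l w (lam + a) x0 β β0 0 = fun r => β * conj (Sl d l w a (conj lam) r) := by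
  funext r
  unfold mJs PhJs
  have e : conj (lam + (a : ℂ)) = conj lam + a := by simp
  rw [e, PhJ_eq_Sl, zero_mul, zero_mul, add_zero]

theorem deriv_conj_Sl (d l : ℕ) (w a : ℝ) (lam : ℂ) (r : ℝ) :
    deriv (fun r => conj (Sl d l w a lam r)) r = conj (deriv (Sl d l w a lam) r) := by
  have := deriv.star (F := ℂ) (𝕜 := ℝ) (f := Sl d l w a lam) (x := r)
  simpa using this

theorem extE2_of_extJ (h : ExtJ d K w R q) : ExtE2 d K w R q := by
  intro C η hη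
  obtain ⟨cc, hcc, m1, H⟩ := h C η hη
  refine ⟨cc, hcc, m1, fun m hm l lam hl hlam F G hp => ?_⟩
  have hs : RSol d m l (w m) (q m) lam 0 F G F G := by
    refine ⟨fun r hr => ?_, fun r hr => ?_⟩
    · rw [hp.e1 r hr, zero_mul, add_zero]
    · rw [hp.e2 r hr, zero_mul, add_zero]
  obtain ⟨α, β, α0, β0, Hr⟩ := H m hm l lam lam hl hl hlam hlam F G F G 0 hp.hF hp.hG hp.hF hp.hG
    hs hs
  refine ⟨α0, β0, fun r hr => ?_⟩
  obtain ⟨⟨a1, a2⟩, ⟨b1, b2⟩, -, -⟩ := Hr r hr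
  rw [mJ_zero] at a1 a2
  rw [mJs_zero] at b1 b2
  rw [deriv_const_mul_field] at a2 b2
  rw [deriv_conj_Sl] at b2
  exact ⟨a1, a2, b1, b2⟩

end Vale.Agent.P139.H607
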