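import Vale.Agent.P139.H607.S1Main
import Vale.Agent.P139.H607.E2ofJ

/-!
# P139 [S1] : output from `UP` and `ExtJ` (helper607)
-/

namespace Vale.Agent.P139.H607

open Vale.Agent.P139.BU Vale.Agent.P139.H901

variable {d K m0 : ℕ} {B : Set (ℝ × ℝ)} {w R : ℕ → ℝ} {q : ℕ → ℝ → ℂ}

theorem s1_final_J (h : UP d B m0 w R q) (hd : 4 ≤ d) (hK : 2 * (d + 5) ≤ K)
    (hJ : ExtJ d K w R q) : S1Out d K w q := s1_final h hd hK (extE2_of_extJ hJ)

theorem s1_out_J (h : UP d B m0 w R q) (hd : 4 ≤ d) (hK : 2 * (d + 5) ≤ K)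
    (hJ : ExtJ d K w R q) : H700.S1Out d w q := s1_out h hd hK (extE2_of_extJ hJ)

end Vale.Agent.P139.H607
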