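import Mathlib

/-!
# P139 [S1] : the WKB square root `k0` of the free exterior problem (helper607)

`k0 lam s = exp(-I π/4) * (lam + I s)^(1/2)`, for `Re lam ≥ 0`: no branch problem since `lam + I s` lies in the
closed right half plane.  `k0^2 = s - I lam`, `Re k0 ≥ 0`, `Im k0 ≤ 0`.
-/

namespace Vale.Agent.P139.H607

open Complex

noncomputable section

/-- the principal square root of `z`, `Re z ≥ 0`: `sq z = z^(1/2)` -/
def sqz (z : ℂ) : ℂ := z ^ (1 / 2 : ℂ)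

/-- the unit vector `exp(-i π/4) = (1 - i)/√2` -/
def em : ℂ := ((Real.sqrt 2 / 2 : ℝ) : ℂ) * (1 - I)

/-- WKB root. -/
def k0 (lam : ℂ) (s : ℝ) : ℂ := em * sqz (lam + I * s)

/-- root for the conjugate component. -/
def k0s (lam : ℂ) (s : ℝ) : ℂ := (starRingEnd ℂ) (k0 ((starRingEnd ℂ) lam) s)

theorem sqz_sq (z : ℂ) : sqz z ^ 2 = z := by
  unfold sqz
  rw [← Complex.cpow_nat_mul]
  norm_num

theorem sqz_re_nonneg (z : ℂ) : 0 ≤ (sqz z).re := by
  unfold sqz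
  by_cases hz0 : z = 0
  · subst hz0; simp
  rw [Complex.cpow_def_of_ne_zero hz0, Complex.exp_re]
  apply mul_nonneg (Real.exp_pos _).le
  apply Real.cos_nonneg_of_mem_Icc
  have e1 : (Complex.log z * (1 / 2 : ℂ)).im = z.arg / 2 := by
    have : (1 / 2 : ℂ) = ((1 / 2 : ℝ) : ℂ) := by push_cast; ring
    rw [this, Complex.mul_im, Complex.ofReal_re, Complex.ofReal_im, Complex.log_im]
    ring
  rw [e1]
  constructor
  · have := Complex.neg_pi_lt_arg z; linarith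
  · have := Complex.arg_le_pi z; linarith

theorem sqz_re_ge_im {z : ℂ} (hz : 0 ≤ z.re) : |(sqz z).im| ≤ (sqz z).re := by
  have h2 := sqz_sq z
  have hre : (sqz z).re ^ 2 - (sqz z).im ^ 2 = z.re := by
    have := congrArg Complex.re h2
    simp [pow_two] at this
    nlinarith [this]
  apply abs_le_of_sq_le_sq _ (sqz_re_nonneg z)
  nlinarith [hre, hz]

theorem em_sq : em ^ 2 = -I := by
  unfold em
  have h : ((Real.sqrt 2 / 2 : ℝ) : ℂ) ^ 2 = 1 / 2 := by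
    rw [← Complex.ofReal_pow, div_pow, Real.sq_sqrt (by norm_num)]
    norm_num
  rw [mul_pow, h]
  have : (1 - I) ^ 2 = -2 * I := by
    ring_nf
    rw [I_sq]; ring
  rw [this]; ring

theorem em_norm : ‖em‖ = 1 := by
  have h : ‖em‖ ^ 2 = 1 := by
    rw [← norm_pow, em_sq, norm_neg, norm_I]
  have h0 := norm_nonneg em
  nlinarith

theorem em_re : em.re = Real.sqrt 2 / 2 := by
  unfold em; rw [Complex.re_ofReal_mul]; simp

theorem em_im : em.im = -(Real.sqrt 2 / 2) := by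
  unfold em; rw [Complex.im_ofReal_mul]; simp

theorem k0_sq (lam : ℂ) (s : ℝ) : k0 lam s ^ 2 = s - I * lam := by
  unfold k0
  rw [mul_pow, em_sq, sqz_sq]
  ring_nf
  rw [I_sq]; ring

theorem k0_re_nonneg {lam : ℂ} (hl : 0 ≤ lam.re) (s : ℝ) : 0 ≤ (k0 lam s).re := by
  have h := sqz_re_ge_im (z := lam + I * s) (by simpa using hl)
  have h2 : (0:ℝ) ≤ Real.sqrt 2 := Real.sqrt_nonneg 2
  have : (k0 lam s).re = Real.sqrt 2 / 2 * ((sqz (lam + I * s)).re + (sqz (lam + I * s)).im) := by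
    unfold k0; rw [Complex.mul_re, em_re, em_im]; ring
  rw [this]
  apply mul_nonneg (by positivity)
  linarith [neg_abs_le (sqz (lam + I * s)).im]

theorem k0_im_nonpos {lam : ℂ} (hl : 0 ≤ lam.re) (s : ℝ) : (k0 lam s).im ≤ 0 := by
  have h := sqz_re_ge_im (z := lam + I * s) (by simpa using hl)
  have h2 : (0:ℝ) ≤ Real.sqrt 2 := Real.sqrt_nonneg 2
  have : (k0 lam s).im = -(Real.sqrt 2 / 2 * ((sqz (lam + I * s)).re - (sqz (lam + I * s)).im)) := by
    unfold k0; rw [Complex.mul_im, em_re, em_im]; ring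
  rw [this]
  have : 0 ≤ Real.sqrt 2 / 2 * ((sqz (lam + I * s)).re - (sqz (lam + I * s)).im) := by
    apply mul_nonneg (by positivity)
    linarith [le_abs_self (sqz (lam + I * s)).im]
  linarith

theorem k0_norm_sq (lam : ℂ) (s : ℝ) : ‖k0 lam s‖ ^ 2 = ‖(s:ℂ) - I * lam‖ := by
  rw [← k0_sq, norm_pow]

/-- general algebra: if `k^2 = s - I lam` then `Re (conj lam * k) = -(|k|^2 + s) Im k`. -/
theorem re_conj_mul_of_sq {k lam : ℂ} {s : ℝ} (h : k ^ 2 = s - I * lam) :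
    ((starRingEnd ℂ) lam * k).re = -((‖k‖ ^ 2 + s) * k.im) := by
  have h1 : k.re ^ 2 - k.im ^ 2 = s + lam.im := by
    have := congrArg Complex.re h
    simp [pow_two] at this
    nlinarith [this]
  have h2 : 2 * k.re * k.im = -lam.re := by
    have := congrArg Complex.im h
    simp [pow_two] at this
    nlinarith [this]
  have h3 : ‖k‖ ^ 2 = k.re ^ 2 + k.im ^ 2 := by
    rw [← Complex.normSq_eq_norm_sq, Complex.normSq_apply]; ring
  rw [h3, Complex.mul_re, Complex.conj_re, Complex.conj_im]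
  have h4 : lam.im = k.re ^ 2 - k.im ^ 2 - s := by linarith
  have h5 : lam.re = -(2 * k.re * k.im) := by linarith
  rw [h4, h5]; ring

/-- general algebra: if `k^2 = s + I lam` then `Re (conj lam * k) = (|k|^2 + s) Im k`. -/
theorem re_conj_mul_of_sq' {k lam : ℂ} {s : ℝ} (h : k ^ 2 = s + I * lam) :
    ((starRingEnd ℂ) lam * k).re = (‖k‖ ^ 2 + s) * k.im := by
  have h1 : k.re ^ 2 - k.im ^ 2 = s - lam.im := by
    have := congrArg Complex.re h
    simp [pow_two] at this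
    nlinarith [this]
  have h2 : 2 * k.re * k.im = lam.re := by
    have := congrArg Complex.im h
    simp [pow_two] at this
    nlinarith [this]
  have h3 : ‖k‖ ^ 2 = k.re ^ 2 + k.im ^ 2 := by
    rw [← Complex.normSq_eq_norm_sq, Complex.normSq_apply]; ring
  rw [h3, Complex.mul_re, Complex.conj_re, Complex.conj_im]
  have h4 : lam.im = s - (k.re ^ 2 - k.im ^ 2) := by linarith
  rw [h4, ← h2]; ring

theorem k0_energy {lam : ℂ} (hl : 0 ≤ lam.re) (s : ℝ) :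
    ((starRingEnd ℂ) lam * k0 lam s).re = (‖k0 lam s‖ ^ 2 + s) * |(k0 lam s).im| := by
  rw [re_conj_mul_of_sq (k0_sq lam s), abs_of_nonpos (k0_im_nonpos hl s)]
  ring

theorem k0s_sq (lam : ℂ) (s : ℝ) : k0s lam s ^ 2 = s + I * lam := by
  unfold k0s
  rw [← map_pow, k0_sq]
  simp

theorem k0s_re_nonneg {lam : ℂ} (hl : 0 ≤ lam.re) (s : ℝ) : 0 ≤ (k0s lam s).re := by
  unfold k0s
  rw [Complex.conj_re]
  exact k0_re_nonneg (by simpa using hl) s

theorem k0s_im_nonneg {lam : ℂ} (hl : 0 ≤ lam.re) (s : ℝ) : 0 ≤ (k0s lam s).im := by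
  unfold k0s
  rw [Complex.conj_im]
  have := k0_im_nonpos (lam := (starRingEnd ℂ) lam) (by simpa using hl) s
  linarith

theorem k0s_norm_sq (lam : ℂ) (s : ℝ) : ‖k0s lam s‖ ^ 2 = ‖(s:ℂ) + I * lam‖ := by
  rw [← k0s_sq, norm_pow]

theorem k0s_energy {lam : ℂ} (hl : 0 ≤ lam.re) (s : ℝ) :
    ((starRingEnd ℂ) lam * k0s lam s).re = (‖k0s lam s‖ ^ 2 + s) * |(k0s lam s).im| := by
  rw [re_conj_mul_of_sq' (k0s_sq lam s), abs_of_nonneg (k0s_im_nonneg hl s)]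

/-- (K2) stability of the square root: `p` in the closed right half plane, `p0` in the sector `|arg| ≤ π/4`. -/
theorem norm_add_ge_sector {p p0 : ℂ} (hp : 0 ≤ p.re) (hp0 : |p0.im| ≤ p0.re) :
    ‖p0‖ ^ 2 ≤ 2 * ‖p + p0‖ ^ 2 := by
  have e : ∀ z : ℂ, ‖z‖ ^ 2 = z.re ^ 2 + z.im ^ 2 := fun z => by
    rw [← Complex.normSq_eq_norm_sq, Complex.normSq_apply]; ring
  rw [e, e]
  simp only [Complex.add_re, Complex.add_im]
  have h1 : p0.im ^ 2 ≤ p0.re ^ 2 := by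
    apply sq_le_sq' <;> linarith [abs_le.mp hp0]
  have h2 : 0 ≤ p0.re := le_trans (abs_nonneg _) hp0
  nlinarith [mul_nonneg hp h2, sq_nonneg (p.im + p0.im), sq_nonneg p.re]

/-- (K2) If `Re (em⁻¹ S) ≥ 0` and `|S² - k0²| ≤ C` then `|S - k0| |k0| ≤ 2 C`. -/
theorem k0_stable {lam : ℂ} (hl : 0 ≤ lam.re) {s : ℝ} {p : ℂ} {C : ℝ} (hp : 0 ≤ p.re)
    (hC : ‖(em * p) ^ 2 - (s - I * lam)‖ ≤ C) :
    ‖em * p - k0 lam s‖ * ‖k0 lam s‖ ≤ 2 * C := by
  set z := sqz (lam + I * s) with hz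
  have hz1 : |z.im| ≤ z.re := sqz_re_ge_im (by simpa using hl)
  have h1 := norm_add_ge_sector hp hz1
  have h2 : ‖em * p - k0 lam s‖ = ‖p - z‖ := by
    unfold k0; rw [← mul_sub, norm_mul, em_norm, one_mul]
  have h3 : ‖k0 lam s‖ = ‖z‖ := by
    unfold k0; rw [norm_mul, em_norm, one_mul]
  have h4 : ‖p - z‖ * ‖p + z‖ ≤ C := by
    rw [← norm_mul]
    have : (em * p) ^ 2 - (s - I * lam) = em ^ 2 * ((p - z) * (p + z)) := by
      rw [← k0_sq]; unfold k0; ring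
    rw [this, norm_mul, norm_pow, em_norm, one_pow, one_mul] at hC
    exact hC
  rw [h2, h3]
  have h5 : ‖z‖ ≤ 2 * ‖p + z‖ := by
    have := norm_nonneg (p + z)
    apply abs_le_of_sq_le_sq' _ (by positivity) |>.2
    nlinarith [sq_nonneg ‖p + z‖]
  calc ‖p - z‖ * ‖z‖ ≤ ‖p - z‖ * (2 * ‖p + z‖) := by gcongr
    _ = 2 * (‖p - z‖ * ‖p + z‖) := by ring
    _ ≤ 2 * C := by linarith

/-- (K3) two radii: `s a, s b` the values `L/r²`; one of the radii is nondegenerate. -/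
theorem two_radii {L nu ra rb c : ℝ} (hL : 0 ≤ L) (hnu : 0 ≤ nu) (hra : 0 < ra) (hab : ra < rb)
    (hc1 : c * (1 + 2 / (1 / ra ^ 2 - 1 / rb ^ 2) * (1 + 1 / ra ^ 2)) ≤ 1 / 2)
    (hbig : 2 < 1 + nu + L) :
    c * (1 + nu + L) ≤ |nu - L / ra ^ 2| ∨ c * (1 + nu + L) ≤ |nu - L / rb ^ 2| := by
  by_contra hcon
  push Not at hcon
  obtain ⟨h1, h2⟩ := hcon
  set K := 1 + nu + L with hK
  have hrb : 0 < rb := lt_trans hra hab
  set D := 1 / ra ^ 2 - 1 / rb ^ 2 with hD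
  have hDpos : 0 < D := by
    rw [hD]
    have : 1 / rb ^ 2 < 1 / ra ^ 2 := by
      apply one_div_lt_one_div_of_lt (by positivity)
      apply pow_lt_pow_left₀ hab hra.le (by norm_num)
    linarith
  have hLD : L * D < 2 * c * K := by
    have e : L * D = (nu - L / rb ^ 2) - (nu - L / ra ^ 2) := by rw [hD]; ring
    rw [e]
    have a1 := abs_lt.mp h1
    have a2 := abs_lt.mp h2
    linarith
  have hL2 : L < 2 * c * K / D := by
    rw [lt_div_iff₀ hDpos]; exact hLD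
  have hnu2 : nu < c * K + L * (1 / ra ^ 2) := by
    have a1 := (abs_lt.mp h1).2
    have e : L / ra ^ 2 = L * (1 / ra ^ 2) := by ring
    rw [← e]; linarith
  have hra2 : 0 < 1 / ra ^ 2 := by positivity
  have h3 : L * (1 / ra ^ 2) ≤ 2 * c * K / D * (1 / ra ^ 2) := by gcongr
  have hKe : K < 1 + c * K * (1 + 2 / D * (1 + 1 / ra ^ 2)) := by
    have e : c * K * (1 + 2 / D * (1 + 1 / ra ^ 2)) =
        c * K + 2 * c * K / D * (1 / ra ^ 2) + 2 * c * K / D := by ring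
    rw [e]; linarith
  have hKpos : 0 < K := by linarith
  have h4 : c * K * (1 + 2 / D * (1 + 1 / ra ^ 2)) ≤ K * (1 / 2) := by
    calc c * K * (1 + 2 / D * (1 + 1 / ra ^ 2)) = K * (c * (1 + 2 / D * (1 + 1 / ra ^ 2))) := by ring
      _ ≤ K * (1 / 2) := by gcongr
  linarith

/-- (K3) both squares are bounded below by `||lam| - s|`. -/
theorem norm_sub_I_ge (lam : ℂ) (s : ℝ) : abs (‖lam‖ - abs s) ≤ ‖(s:ℂ) - I * lam‖ := by
  have h := abs_norm_sub_norm_le (s:ℂ) (I * lam)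
  rw [norm_mul, norm_I, one_mul, Complex.norm_real, Real.norm_eq_abs] at h
  rw [abs_sub_comm]; exact h

theorem norm_add_I_ge (lam : ℂ) (s : ℝ) : abs (‖lam‖ - abs s) ≤ ‖(s:ℂ) + I * lam‖ := by
  have h := abs_norm_sub_norm_le (s:ℂ) (-(I * lam))
  rw [norm_neg, norm_mul, norm_I, one_mul, Complex.norm_real, Real.norm_eq_abs, sub_neg_eq_add] at h
  rw [abs_sub_comm]; exact h

/-- upper bound `|k0|² ≤ s + |lam|` -/
theorem k0_norm_sq_le (lam : ℂ) {s : ℝ} (hs : 0 ≤ s) : ‖k0 lam s‖ ^ 2 ≤ s + ‖lam‖ := by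
  rw [k0_norm_sq]
  calc ‖(s:ℂ) - I * lam‖ ≤ ‖(s:ℂ)‖ + ‖I * lam‖ := norm_sub_le _ _
    _ = s + ‖lam‖ := by
      rw [norm_mul, norm_I, one_mul, Complex.norm_real, Real.norm_eq_abs, abs_of_nonneg hs]

theorem k0s_norm_sq_le (lam : ℂ) {s : ℝ} (hs : 0 ≤ s) : ‖k0s lam s‖ ^ 2 ≤ s + ‖lam‖ := by
  rw [k0s_norm_sq]
  calc ‖(s:ℂ) + I * lam‖ ≤ ‖(s:ℂ)‖ + ‖I * lam‖ := norm_add_le _ _
    _ = s + ‖lam‖ := by
      rw [norm_mul, norm_I, one_mul, Complex.norm_real, Real.norm_eq_abs, abs_of_nonneg hs]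

/-- (K4) conversion: `F = α Φ + e1`, `F' = α Φ' + e2`, `Φ' = Kp Φ`; `w = F/q`; `w' = F'/q - F q'/q^2`.
Then `w' = -(q'/q - Kp) w + (e2 - Kp e1)/q`. -/
theorem w1_eq {F F1 q q1 al Ph Ph1 Kp e1 e2 : ℂ} (hq : q ≠ 0)
    (hF : F = al * Ph + e1) (hF1 : F1 = al * Ph1 + e2) (hPh : Ph1 = Kp * Ph) :
    F1 / q - F * q1 / q ^ 2 = -(q1 / q - Kp) * (F / q) + (e2 - Kp * e1) / q := by
  subst hF hF1 hPh
  field_simp
  ring

end

end Vale.Agent.P139.H607
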