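import Vale.Agent.P139.H607.K0
import Vale.Agent.P139.H498.Int2
import Vale.Agent.P139.H498.Int4

/-!
# P139 [S1] : from the exterior representation to the boundary data (helper607)
-/

namespace Vale.Agent.P139.H607

open Complex Vale.Agent.P139.H498 Vale.Agent.P139.BU
open scoped ComplexConjugate

noncomputable section

/-- the `F`-component: `gf1 = -k gf + e`. -/
theorem bd_u {q q1 F F1 : ℝ → ℂ} {al Ph Ph1 kP : ℂ} {r : ℝ} (hq : q r ≠ 0)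
    (hPh : Ph1 = -kP * Ph) :
    gf1 q q1 F F1 r = -(q1 r / q r + kP) * gf q F r
      + ((F1 r - al * Ph1) + kP * (F r - al * Ph)) / q r := by
  have h := w1_eq (F := F r) (F1 := F1 r) (q := q r) (q1 := q1 r) (al := al) (Ph := Ph) (Ph1 := Ph1)
    (Kp := -kP) (e1 := F r - al * Ph) (e2 := F1 r - al * Ph1) hq (by ring) (by ring) hPh
  simp only [gf, gf1]
  rw [h]
  ring

/-- size of the error in the weight `gM`. -/
theorem bd_err {d : ℕ} {q : ℝ → ℂ} {e1 e2 kP : ℂ} {r K ep : ℝ} (hr : 0 < r) (hq : q r ≠ 0)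
    (hK : ‖kP‖ ≤ K) (h1 : ‖e1‖ ≤ ep) (h2 : ‖e2‖ ≤ ep) :
    ‖(e2 + kP * e1) / q r‖ ^ 2 * gM d q r ≤ ((1 + K) * ep) ^ 2 * r ^ (d - 1) := by
  have hqn : ‖q r‖ ≠ 0 := by simpa using hq
  have e : ‖(e2 + kP * e1) / q r‖ ^ 2 * gM d q r = ‖e2 + kP * e1‖ ^ 2 * r ^ (d - 1) := by
    unfold gM
    rw [norm_div, Complex.normSq_eq_norm_sq]
    field_simp
  rw [e]
  have hK0 : 0 ≤ K := le_trans (norm_nonneg _) hK
  have hep : 0 ≤ ep := le_trans (norm_nonneg _) h1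
  have h3 : ‖e2 + kP * e1‖ ≤ (1 + K) * ep := by
    calc ‖e2 + kP * e1‖ ≤ ‖e2‖ + ‖kP * e1‖ := norm_add_le _ _
      _ = ‖e2‖ + ‖kP‖ * ‖e1‖ := by rw [norm_mul]
      _ ≤ ep + K * ep := by gcongr
      _ = (1 + K) * ep := by ring
  gcongr

/-- `|F|² + |G|² = 2 |q|² (|A|² + |B|²)` -/
theorem gM_AB {d : ℕ} {q F G : ℝ → ℂ} {r : ℝ} (hq : q r ≠ 0) :
    gM d q r * (normSq (gA q F G r) + normSq (gB q F G r))
      = (1 / 2) * ((‖F r‖ ^ 2 + ‖G r‖ ^ 2) * r ^ (d - 1)) := by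
  have hq2 : conj (q r) ≠ 0 := (map_ne_zero _).mpr hq
  have hn : normSq (q r) ≠ 0 := by simpa using hq
  set u := gf q F r with hu
  set v := gf (fun r => conj (q r)) G r with hv
  have hF : F r = u * q r := by rw [hu]; simp only [gf]; field_simp
  have hG : G r = v * conj (q r) := by rw [hv]; simp only [gf]; field_simp
  have hA : gA q F G r = (u + v) / 2 := rfl
  have hB : gB q F G r = (u - v) / (2 * I) := rfl
  have h1 : normSq (gA q F G r) + normSq (gB q F G r) = (normSq u + normSq v) / 2 := by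
    rw [hA, hB, normSq_div, normSq_div, normSq_add, normSq_sub]
    simp
    norm_num
    ring
  rw [h1, hF, hG, norm_mul, norm_mul, mul_pow, mul_pow, ← Complex.normSq_eq_norm_sq,
    ← Complex.normSq_eq_norm_sq, ← Complex.normSq_eq_norm_sq, ← Complex.normSq_eq_norm_sq,
    normSq_conj]
  unfold gM
  ring

/-- closeness of the DtN coefficient to `k0`, from the WKB form of Theorem X:
`Φ'/Φ = -(c0' + em p (1+η))`. -/
theorem kP_close {lam : ℂ} (hl : 0 ≤ lam.re) {s : ℝ} {p Kp c0' η : ℂ} {C0 C1 ε : ℝ}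
    (hKp : Kp = -(c0' + em * p * (1 + η))) (hc0' : ‖c0'‖ ≤ C0) (hp : 0 ≤ p.re)
    (hsq : ‖(em * p) ^ 2 - (s - I * lam)‖ ≤ C1) (hη : ‖η‖ ≤ ε) (hk0 : 0 < ‖k0 lam s‖) :
    ‖-Kp - k0 lam s‖ ≤ C0 + ε * ‖k0 lam s‖ + (1 + ε) * (2 * C1 / ‖k0 lam s‖) := by
  have h1 : ‖em * p - k0 lam s‖ ≤ 2 * C1 / ‖k0 lam s‖ := by
    rw [le_div_iff₀ hk0]
    exact k0_stable hl hp hsq
  have e : -Kp - k0 lam s = c0' + k0 lam s * η + (em * p - k0 lam s) * (1 + η) := by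
    rw [hKp]; ring
  have hε : 0 ≤ ε := le_trans (norm_nonneg _) hη
  have h2 : ‖(1 : ℂ) + η‖ ≤ 1 + ε := by
    calc ‖(1 : ℂ) + η‖ ≤ ‖(1 : ℂ)‖ + ‖η‖ := norm_add_le _ _
      _ ≤ 1 + ε := by rw [norm_one]; gcongr
  have h3 : 0 ≤ 2 * C1 / ‖k0 lam s‖ := le_trans (norm_nonneg _) h1
  calc ‖-Kp - k0 lam s‖ = ‖c0' + k0 lam s * η + (em * p - k0 lam s) * (1 + η)‖ := by rw [e]
    _ ≤ ‖c0'‖ + ‖k0 lam s * η‖ + ‖(em * p - k0 lam s) * (1 + η)‖ := norm_add₃_le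
    _ = ‖c0'‖ + ‖k0 lam s‖ * ‖η‖ + ‖em * p - k0 lam s‖ * ‖1 + η‖ := by
        rw [norm_mul, norm_mul]
    _ ≤ C0 + ‖k0 lam s‖ * ε + 2 * C1 / ‖k0 lam s‖ * (1 + ε) := by gcongr
    _ = _ := by ring

/-- Boundary data of the pair `(F,G)` at the radius `r`: both components satisfy `w' = -k w + e` with `k` close
to the WKB root and `e` small in the weight `gM`. -/
def BdAt (d l : ℕ) (lam : ℂ) (q q1 F F1 G G1 : ℝ → ℂ) (δk δe : ℝ) (r : ℝ) : Prop :=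
  ∃ ku eu kv ev : ℂ,
    gf1 q q1 F F1 r = -ku * gf q F r + eu ∧
    gf1 (fun r => conj (q r)) (fun r => conj (q1 r)) G G1 r
      = -kv * gf (fun r => conj (q r)) G r + ev ∧
    ‖ku - k0 lam (gL d l / r ^ 2)‖ ≤ δk ∧ ‖kv - k0s lam (gL d l / r ^ 2)‖ ≤ δk ∧
    ‖eu‖ ^ 2 * gM d q r ≤ δe ∧ ‖ev‖ ^ 2 * gM d q r ≤ δe

/-- Exterior representation + WKB ⟹ boundary data.
`Ph` is the slow solution at `lam`, `Pt` the one at `conj lam` (so the second component is `be * conj Pt`). -/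
theorem bdAt_of {d l : ℕ} {lam : ℂ} {q q1 F F1 G G1 : ℝ → ℂ} {r : ℝ} (hr : 0 < r) (hq : q r ≠ 0)
    {al be Ph Ph1 Pt Pt1 kP kT : ℂ} {Cq K ep δ : ℝ}
    (hPh : Ph1 = -kP * Ph) (hPt : Pt1 = -kT * Pt)
    (hF : ‖F r - al * Ph‖ ≤ ep) (hF1 : ‖F1 r - al * Ph1‖ ≤ ep)
    (hG : ‖G r - be * conj Pt‖ ≤ ep) (hG1 : ‖G1 r - be * conj Pt1‖ ≤ ep)
    (hkP : ‖kP - k0 lam (gL d l / r ^ 2)‖ ≤ δ) (hkT : ‖kT - k0 (conj lam) (gL d l / r ^ 2)‖ ≤ δ)
    (hKP : ‖kP‖ ≤ K) (hKT : ‖kT‖ ≤ K) (hCq : ‖q1 r / q r‖ ≤ Cq) :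
    BdAt d l lam q q1 F F1 G G1 (Cq + δ) (((1 + K) * ep) ^ 2 * r ^ (d - 1)) r := by
  have hqc : (fun r => conj (q r)) r ≠ 0 := (map_ne_zero _).mpr hq
  refine ⟨q1 r / q r + kP, ((F1 r - al * Ph1) + kP * (F r - al * Ph)) / q r,
    conj (q1 r) / conj (q r) + conj kT,
    ((G1 r - be * conj Pt1) + conj kT * (G r - be * conj Pt)) / conj (q r), ?_, ?_, ?_, ?_, ?_, ?_⟩
  · exact bd_u hq hPh
  · refine bd_u (q := fun r => conj (q r)) (q1 := fun r => conj (q1 r)) (al := be) (kP := conj kT)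
      hqc ?_
    rw [hPt]; simp
  · calc ‖q1 r / q r + kP - k0 lam (gL d l / r ^ 2)‖
        = ‖q1 r / q r + (kP - k0 lam (gL d l / r ^ 2))‖ := by ring_nf
      _ ≤ ‖q1 r / q r‖ + ‖kP - k0 lam (gL d l / r ^ 2)‖ := norm_add_le _ _
      _ ≤ Cq + δ := by gcongr
  · have e : conj (q1 r) / conj (q r) + conj kT - k0s lam (gL d l / r ^ 2)
        = conj (q1 r / q r + (kT - k0 (conj lam) (gL d l / r ^ 2))) := by
      simp only [k0s, map_add, map_sub, map_div₀]; ring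
    rw [e, RCLike.norm_conj]
    calc ‖q1 r / q r + (kT - k0 (conj lam) (gL d l / r ^ 2))‖
        ≤ ‖q1 r / q r‖ + ‖kT - k0 (conj lam) (gL d l / r ^ 2)‖ := norm_add_le _ _
      _ ≤ Cq + δ := by gcongr
  · exact bd_err hr hq hKP hF hF1
  · have h := bd_err (d := d) (q := fun r => conj (q r)) (kP := conj kT)
      (e1 := G r - be * conj Pt) (e2 := G1 r - be * conj Pt1) (K := K) (ep := ep) hr hqc
      (by rw [RCLike.norm_conj]; exact hKT) hG hG1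
    have e : gM d (fun r => conj (q r)) r = gM d q r := by unfold gM; rw [normSq_conj]
    rw [e] at h
    exact h

end

end Vale.Agent.P139.H607
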