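import Vale.Agent.P139.BU.UP
import Vale.Agent.P139.KU.SlowR
import Vale.Agent.P139.H607.BdData

/-!
# P139 [S1] : exact forms of the inputs consumed by `S1Final` (helper607)

* `Sl d l w a lam` : the free slow solution at the spectral parameter `lam`
* `ThXS d` : Theorem X (WKB of the slow solution, uniform in everything)
* `ExtE1`, `ExtE2` : exterior description of admissible pairs
* `S1Out` : the output of [S1]
-/

namespace Vale.Agent.P139.H607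

open Complex Vale.Agent.P139.H498 Vale.Agent.P139.BU
open scoped ComplexConjugate

noncomputable section

/-- Free slow solution of degree `l` at the spectral parameter `lam` (first component):
`κ = lam + a - i w`, `Φ = r^l J(κ + l/2, d/2 + l/2 - κ - 1; r²/4)`. -/
def Sl (d l : ℕ) (w a : ℝ) (lam : ℂ) : ℝ → ℂ :=
  KU.Phi l (lam + a - I * w + l / 2) ((d : ℂ) / 2 + l / 2 - (lam + a - I * w) - 1)

/-- squared mass of the pair on `(0, ρ)`. -/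
def massN (d : ℕ) (F G : ℝ → ℂ) (ρ : ℝ) : ℝ :=
  ∫ r in (0 : ℝ)..ρ, (‖F r‖ ^ 2 + ‖G r‖ ^ 2) * r ^ (d - 1)

/-- `κ² = 1 + |lam| + l(l+d-2)` -/
def kap2 (d l : ℕ) (lam : ℂ) : ℝ := 1 + ‖lam‖ + gL d l

/-- Theorem X. -/
def ThXS (d : ℕ) : Prop :=
  ∀ ra rb w0 c1 ε : ℝ, 0 < ra → ra ≤ rb → 0 < c1 → 0 < ε → ∃ N : ℝ,
    ∀ (l : ℕ) (lam : ℂ) (w a r : ℝ), |w| ≤ w0 → 0 < a → a ≤ 1 → 0 ≤ lam.re → ra ≤ r → r ≤ rb →
      N ≤ kap2 d l lam → c1 * kap2 d l lam ≤ ‖((gL d l / r ^ 2 : ℝ) : ℂ) - I * lam‖ →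
      ∃ kP : ℂ, Sl d l w a lam r ≠ 0 ∧ deriv (Sl d l w a lam) r = -kP * Sl d l w a lam r ∧
        ‖kP - k0 lam (gL d l / r ^ 2)‖ ≤ ε * Real.sqrt (kap2 d l lam)

/-- `(F,G)` is an admissible eigenpair of degree `l` for the `m`-th profile. -/
structure EigPair (d K m l : ℕ) (w : ℝ) (q : ℝ → ℂ) (lam : ℂ) (F G : ℝ → ℂ) : Prop where
  hF : RadAdm K F
  hG : RadAdm K G
  e1 : ∀ r > 0, RL1 d m l w q F G r = lam * F r
  e2 : ∀ r > 0, RL2 d m l w q F G r = lam * G r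

/-- (E1) no eigenpair with `|lam| > m^C`. -/
def ExtE1 (d K : ℕ) (w : ℕ → ℝ) (q : ℕ → ℝ → ℂ) : Prop :=
  ∃ (C m1 : ℕ), ∀ m ≥ m1, ∀ (l : ℕ) (lam : ℂ), 0 ≤ lam.re → (m : ℝ) ^ C < ‖lam‖ → ∀ F G : ℝ → ℂ,
    EigPair d K m l (w m) (q m) lam F G → ∀ r > 0, F r = 0 ∧ G r = 0

/-- (E2) exterior representation with exponentially small error, for `|lam| ≤ m^C` (all `l`). -/
def ExtE2 (d K : ℕ) (w R : ℕ → ℝ) (q : ℕ → ℝ → ℂ) : Prop :=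
  ∀ (C : ℕ) (η : ℝ), 0 < η → ∃ c > 0, ∃ m1 : ℕ, ∀ m ≥ m1, ∀ (l : ℕ) (lam : ℂ), 0 ≤ lam.re →
    ‖lam‖ ≤ (m : ℝ) ^ C → ∀ F G : ℝ → ℂ, EigPair d K m l (w m) (q m) lam F G →
    ∃ al be : ℂ, ∀ r : ℝ, R m + η ≤ r →
      ‖F r - al * Sl d l (w m) (aa m) lam r‖
        ≤ Real.exp (-(c * m)) * Real.sqrt (massN d F G (R m + 2 * η)) ∧
      ‖deriv F r - al * deriv (Sl d l (w m) (aa m) lam) r‖
        ≤ Real.exp (-(c * m)) * Real.sqrt (massN d F G (R m + 2 * η)) ∧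
      ‖G r - be * conj (Sl d l (w m) (aa m) (conj lam) r)‖
        ≤ Real.exp (-(c * m)) * Real.sqrt (massN d F G (R m + 2 * η)) ∧
      ‖deriv G r - be * conj (deriv (Sl d l (w m) (aa m) (conj lam)) r)‖
        ≤ Real.exp (-(c * m)) * Real.sqrt (massN d F G (R m + 2 * η))

/-- Output of [S1]: no eigenpair at high frequency, uniformly in `m`. -/
def S1Out (d K : ℕ) (w : ℕ → ℝ) (q : ℕ → ℝ → ℂ) : Prop :=
  ∃ (Λ0 : ℝ) (m1 : ℕ), ∀ m ≥ m1, ∀ (l : ℕ) (lam : ℂ), 0 ≤ lam.re → Λ0 ≤ kap2 d l lam →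
    ∀ F G : ℝ → ℂ, EigPair d K m l (w m) (q m) lam F G → ∀ r > 0, F r = 0 ∧ G r = 0

end

end Vale.Agent.P139.H607
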