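import Vale.Agent.P139.H607.S1Pre
import Vale.Agent.P139.H381.BigL

/-!
# P139 [S1] : the regime `L ≥ Λ1 (1+|lam|)^2` (helper607; uses 381's `bigL`)
-/

namespace Vale.Agent.P139.H607

open Complex Set MeasureTheory Vale.Agent.P139.H498 Vale.Agent.P139.BU
open scoped ComplexConjugate ContDiff

noncomputable section

variable {d K m0 : ℕ} {B : Set (ℝ × ℝ)} {w R : ℕ → ℝ} {q : ℕ → ℝ → ℂ}

theorem gf_eq (q F G : ℝ → ℂ) (r : ℝ) : gf q F r = gA q F G r + I * gB q F G r := by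
  simp only [gA, gB, div_two_I]
  linear_combination (gf q F r - gf (fun r => conj (q r)) G r) / 2 * I_mul_I

theorem gf_eq' (q F G : ℝ → ℂ) (r : ℝ) :
    gf (fun r => conj (q r)) G r = gA q F G r - I * gB q F G r := by
  simp only [gA, gB, div_two_I]
  linear_combination (gf (fun r => conj (q r)) G r - gf q F r) / 2 * I_mul_I

theorem gf1_eq (q q1 F F1 G G1 : ℝ → ℂ) (r : ℝ) :
    gf1 q q1 F F1 r = gA1 q q1 F F1 G G1 r + I * gB1 q q1 F F1 G G1 r := by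
  simp only [gA1, gB1, div_two_I]
  linear_combination (gf1 q q1 F F1 r
    - gf1 (fun r => conj (q r)) (fun r => conj (q1 r)) G G1 r) / 2 * I_mul_I

theorem gf1_eq' (q q1 F F1 G G1 : ℝ → ℂ) (r : ℝ) :
    gf1 (fun r => conj (q r)) (fun r => conj (q1 r)) G G1 r
      = gA1 q q1 F F1 G G1 r - I * gB1 q q1 F F1 G G1 r := by
  simp only [gA1, gB1, div_two_I]
  linear_combination (gf1 (fun r => conj (q r)) (fun r => conj (q1 r)) G G1 r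
    - gf1 q q1 F F1 r) / 2 * I_mul_I

theorem FG_zero_of_AB {q F G : ℝ → ℂ} {r : ℝ} (hq : q r ≠ 0) (hA : gA q F G r = 0)
    (hB : gB q F G r = 0) : F r = 0 ∧ G r = 0 := by
  have h1 := gf_eq q F G r
  have h2 := gf_eq' q F G r
  rw [hA, hB] at h1 h2
  simp only [gf, mul_zero, add_zero, sub_zero, div_eq_zero_iff] at h1 h2
  refine ⟨h1.resolve_right hq, h2.resolve_right ?_⟩
  exact (map_ne_zero _).mpr hq

/-- mass on `(0,ρ)` in the gauge, and comparison with the larger interval `(0,b)`. -/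
theorem massN_le {q F G : ℝ → ℂ} {ρ b : ℝ} (hρ : 0 ≤ ρ) (hρb : ρ ≤ b)
    (hq : ∀ r ∈ Ioc 0 b, q r ≠ 0)
    (hi : IntervalIntegrable (fun r => gM d q r * (normSq (gA q F G r) + normSq (gB q F G r)))
      volume 0 b) :
    massN d F G ρ ≤ 2 * ∫ r in (0 : ℝ)..b, gM d q r * (normSq (gA q F G r)
      + normSq (gB q F G r)) := by
  have e : massN d F G ρ = 2 * ∫ r in (0 : ℝ)..ρ, gM d q r * (normSq (gA q F G r)
      + normSq (gB q F G r)) := by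
    unfold massN
    rw [← intervalIntegral.integral_const_mul]
    refine intervalIntegral.integral_congr_ae (Filter.Eventually.of_forall fun r hr => ?_)
    rw [uIoc_of_le hρ] at hr
    show (‖F r‖ ^ 2 + ‖G r‖ ^ 2) * r ^ (d - 1) = 2 * (gM d q r * (normSq (gA q F G r)
      + normSq (gB q F G r)))
    rw [gM_AB (hq r ⟨hr.1, hr.2.trans hρb⟩)]
    ring
  rw [e]
  gcongr
  refine intervalIntegral.integral_mono_interval le_rfl hρ hρb ?_ hi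
  refine (ae_restrict_iff' measurableSet_Ioc).2 (Filter.Eventually.of_forall fun r hr => ?_)
  show 0 ≤ gM d q r * (normSq (gA q F G r) + normSq (gB q F G r))
  unfold gM
  have := Complex.normSq_nonneg (q r)
  have h2 := Complex.normSq_nonneg (gA q F G r)
  have h3 := Complex.normSq_nonneg (gB q F G r)
  have h4 : 0 ≤ r ^ (d - 1) := pow_nonneg hr.1.le _
  positivity

/-- `A = B = 0` on `(0,b]` gives mass `0`. -/
theorem massN_zero {q F G : ℝ → ℂ} {ρ b : ℝ} (hρ : 0 ≤ ρ) (hρb : ρ ≤ b)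
    (hq : ∀ r ∈ Ioc 0 b, q r ≠ 0)
    (h : ∀ r ∈ Ioc 0 b, gA q F G r = 0 ∧ gB q F G r = 0) : massN d F G ρ = 0 := by
  unfold massN
  rw [intervalIntegral.integral_congr_ae (g := fun _ => (0 : ℝ))]
  · simp
  · refine Filter.Eventually.of_forall fun r hr => ?_
    rw [uIoc_of_le hρ] at hr
    have hr' : r ∈ Ioc 0 b := ⟨hr.1, hr.2.trans hρb⟩
    obtain ⟨h1, h2⟩ := FG_zero_of_AB (hq r hr') (h r hr').1 (h r hr').2
    simp [h1, h2]

/-- lower bound of the real part of a square root with nonnegative real part -/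
theorem re_ge_of_sq {k : ℂ} {t : ℝ} (hk : 0 ≤ k.re) (h : t ^ 2 ≤ (k ^ 2).re) : t ≤ k.re := by
  have e : (k ^ 2).re = k.re ^ 2 - k.im ^ 2 := by simp [pow_two]
  rw [e] at h
  have : t ^ 2 ≤ k.re ^ 2 := by nlinarith [sq_nonneg k.im]
  exact (abs_le_of_sq_le_sq' this hk).2

/-- bound of `gX` from `c ≤ |q|`, `|q'| ≤ C r`. -/
theorem gX_abs_le {q q1 : ℝ → ℂ} {c C r b : ℝ} (hc : 0 < c) (hr : 0 < r) (hrb : r ≤ b)
    (h1 : c ≤ ‖q r‖) (h3 : ‖q1 r‖ ≤ C * r) : |gX q q1 r| ≤ b / 2 + 2 * (|C| * b / c) := by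
  unfold gX
  have hq0 : 0 < ‖q r‖ := lt_of_lt_of_le hc h1
  have e1 : |(q1 r * conj (q r)).im / normSq (q r)| ≤ |C| * b / c := by
    rw [abs_div, Complex.normSq_eq_norm_sq, abs_of_pos (pow_pos hq0 2)]
    have e2 : |(q1 r * conj (q r)).im| ≤ ‖q1 r‖ * ‖q r‖ := by
      refine (Complex.abs_im_le_norm _).trans ?_
      rw [norm_mul, RCLike.norm_conj]
    have e3 : ‖q1 r‖ ≤ |C| * b :=
      h3.trans (mul_le_mul (le_abs_self _) hrb hr.le (abs_nonneg _))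
    calc |(q1 r * conj (q r)).im| / ‖q r‖ ^ 2 ≤ ‖q1 r‖ * ‖q r‖ / ‖q r‖ ^ 2 := by gcongr
      _ = ‖q1 r‖ / ‖q r‖ := by field_simp
      _ ≤ |C| * b / c := by
        have : 0 < b := lt_of_lt_of_le hr hrb
        exact div_le_div₀ (by positivity) e3 hc h1
  calc |r / 2 + 2 * ((q1 r * conj (q r)).im / normSq (q r))|
      ≤ |r / 2| + |2 * ((q1 r * conj (q r)).im / normSq (q r))| := abs_add_le _ _
    _ ≤ b / 2 + 2 * (|C| * b / c) := by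
      rw [abs_of_pos (by positivity : 0 < r / 2), abs_mul, abs_two]
      gcongr

/-- From `A = B = 0` on `(0,b]` to `F = G = 0` everywhere. -/
theorem zero_of_AB_on {F G : ℝ → ℂ} {q : ℝ → ℂ} {Rm η b : ℝ} (hη : 0 < η) (hRm : 0 < Rm)
    (hb : Rm + 2 * η ≤ b) (hq : ∀ r, q r ≠ 0)
    (h : ∀ r ∈ Ioc 0 b, gA q F G r = 0 ∧ gB q F G r = 0)
    (hext : massN d F G (Rm + 2 * η) = 0 → F b = 0 → G b = 0 →
        ∀ r' : ℝ, Rm + η ≤ r' → F r' = 0 ∧ G r' = 0) :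
    ∀ r > 0, F r = 0 ∧ G r = 0 := by
  have hb0 : 0 < b := by linarith
  have hz : ∀ r ∈ Ioc 0 b, F r = 0 ∧ G r = 0 := fun r hr =>
    FG_zero_of_AB (hq r) (h r hr).1 (h r hr).2
  have hm : massN d F G (Rm + 2 * η) = 0 :=
    massN_zero (q := q) (by linarith) hb (fun r _ => hq r) h
  intro r hr
  rcases le_or_gt r b with hrb | hrb
  · exact hz r ⟨hr, hrb⟩
  · exact hext hm (hz b ⟨hb0, le_rfl⟩).1 (hz b ⟨hb0, le_rfl⟩).2 r (by linarith)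

/-- numbers of the regime `L ≥ Λ1 (1+ν)²`. -/
theorem big_num {bR X0 N ν L κ2 : ℝ} (hbR : 1 < bR) (hν : 0 ≤ ν) (hκ : κ2 = 1 + ν + L)
    (hL : (|N| + 4 * bR ^ 2 + 128 * bR ^ 6 + 4 * bR ^ 2 * (X0 ^ 2 + 1) + 1) * (1 + ν) ^ 2 ≤ L) :
    0 < L ∧ κ2 ≤ 2 * L ∧ 1 ≤ κ2 ∧ N ≤ κ2 ∧ ν ≤ L / (4 * bR ^ 2) ∧ 128 * bR ^ 6 ≤ L ∧
      X0 ^ 2 < L / (4 * bR ^ 2) := by
  obtain ⟨Λ1, hΛ⟩ : ∃ Λ1, Λ1 = |N| + 4 * bR ^ 2 + 128 * bR ^ 6 + 4 * bR ^ 2 * (X0 ^ 2 + 1) + 1 :=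
    ⟨_, rfl⟩
  rw [← hΛ] at hL
  have hb0 : 0 < bR := by linarith
  have t1 := abs_nonneg N
  have t1' := le_abs_self N
  have t2 : 0 < bR ^ 2 := by positivity
  have t3 : 0 < bR ^ 6 := by positivity
  have t4 : 0 ≤ 4 * bR ^ 2 * (X0 ^ 2 + 1) := by positivity
  have hΛ1 : 1 ≤ Λ1 := by rw [hΛ]; linarith
  have hsq1 : 1 + ν ≤ (1 + ν) ^ 2 := by nlinarith
  have hsq2 : 1 ≤ (1 + ν) ^ 2 := by linarith
  have hLΛ : Λ1 ≤ L := by
    refine le_trans ?_ hL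
    calc Λ1 = Λ1 * 1 := by ring
      _ ≤ Λ1 * (1 + ν) ^ 2 := by gcongr
  have hlamL : Λ1 * (1 + ν) ≤ L := by
    refine le_trans ?_ hL
    gcongr
  have hL0 : 0 < L := by linarith
  have h1 : 1 * (1 + ν) ≤ Λ1 * (1 + ν) := by gcongr
  refine ⟨hL0, by linarith, by linarith, ?_, ?_, ?_, ?_⟩
  · have : N ≤ Λ1 := by rw [hΛ]; linarith
    linarith
  · rw [le_div_iff₀ (by positivity)]
    have h1 : 4 * bR ^ 2 ≤ Λ1 := by rw [hΛ]; linarith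
    have h2 : 4 * bR ^ 2 * (1 + ν) ≤ Λ1 * (1 + ν) := by gcongr
    linarith
  · refine le_trans ?_ hLΛ
    rw [hΛ]; linarith
  · rw [lt_div_iff₀ (by positivity)]
    refine lt_of_lt_of_le ?_ hLΛ
    rw [hΛ]
    have e : X0 ^ 2 * (4 * bR ^ 2) = 4 * bR ^ 2 * (X0 ^ 2 + 1) - 4 * bR ^ 2 := by ring
    rw [e]
    linarith

theorem big_k0 {lam : ℂ} {L b bR κ : ℝ} (hl : 0 ≤ lam.re) (hL : 0 < L) (hb : 0 < b) (hbb : b ≤ bR)
    (hκ : κ ^ 2 ≤ 2 * L) (hlam : ‖lam‖ ≤ L / (4 * bR ^ 2)) :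
    κ / (2 * bR) ≤ (k0 lam (L / b ^ 2)).re ∧ κ / (2 * bR) ≤ (k0s lam (L / b ^ 2)).re ∧
      1 / (4 * bR ^ 2) * κ ^ 2 ≤ ‖((L / b ^ 2 : ℝ) : ℂ) - I * lam‖ ∧
      1 / (4 * bR ^ 2) * κ ^ 2 ≤ ‖((L / b ^ 2 : ℝ) : ℂ) + I * lam‖ := by
  have hbR : 0 < bR := lt_of_lt_of_le hb hbb
  have habs := Complex.abs_im_le_norm lam
  have hsb : L / bR ^ 2 ≤ L / b ^ 2 := by gcongr
  have hsb' : L / bR ^ 2 = 4 * (L / (4 * bR ^ 2)) := by field_simp
  have hLb0 : 0 < L / (4 * bR ^ 2) := by positivity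
  have h3 : (κ / (2 * bR)) ^ 2 ≤ 2 * (L / (4 * bR ^ 2)) := by
    rw [div_pow]
    calc κ ^ 2 / (2 * bR) ^ 2 ≤ (2 * L) / (2 * bR) ^ 2 := by gcongr
      _ = 2 * (L / (4 * bR ^ 2)) := by ring
  have e1 : ((((L / b ^ 2 : ℝ) : ℂ)) - I * lam).re = L / b ^ 2 + lam.im := by
    rw [Complex.sub_re, Complex.ofReal_re, Complex.I_mul_re]; ring
  have e2 : ((((L / b ^ 2 : ℝ) : ℂ)) + I * lam).re = L / b ^ 2 - lam.im := by
    rw [Complex.add_re, Complex.ofReal_re, Complex.I_mul_re]; ring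
  have i1 := (abs_le.1 habs).1
  have i2 := (abs_le.1 habs).2
  have h4 : 1 / (4 * bR ^ 2) * κ ^ 2 ≤ 2 * (L / (4 * bR ^ 2)) := by
    calc 1 / (4 * bR ^ 2) * κ ^ 2 ≤ 1 / (4 * bR ^ 2) * (2 * L) := by gcongr
      _ = 2 * (L / (4 * bR ^ 2)) := by ring
  refine ⟨re_ge_of_sq (k0_re_nonneg hl _) ?_, re_ge_of_sq (k0s_re_nonneg hl _) ?_, ?_, ?_⟩
  · rw [k0_sq, e1]; linarith
  · rw [k0s_sq, e2]; linarith
  · refine h4.trans (le_trans ?_ (Complex.re_le_norm _))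
    rw [e1]; linarith
  · refine h4.trans (le_trans ?_ (Complex.re_le_norm _))
    rw [e2]; linarith

theorem re_ge_of_close {k k' : ℂ} {t e : ℝ} (h1 : t ≤ k'.re) (h2 : ‖k - k'‖ ≤ e) :
    t - e ≤ k.re := by
  have h3 := (abs_le.1 (Complex.abs_re_le_norm (k - k'))).1
  rw [Complex.sub_re] at h3
  linarith

theorem massN_nonneg {F G : ℝ → ℂ} {ρ : ℝ} (hρ : 0 ≤ ρ) : 0 ≤ massN d F G ρ := by
  unfold massN
  apply intervalIntegral.integral_nonneg hρ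
  intro x hx
  have := hx.1
  positivity

/-- one pair in the regime `L ≥ Λ1 (1+|lam|)²`. -/
theorem big_one {c0 c : ℝ} {μ : ℂ} {m l : ℕ} {q q1 q2 F F1 F2 G G1 G2 : ℝ → ℂ} {b bR X0 κ Rm : ℝ}
    {lam : ℂ} {X' M' VA' VB' : ℝ → ℝ}
    (S : SysOn c0 μ (gM d q) (gX q q1) (gVA d m l q) (gVB d l) M' X' VA' VB'
      (gA q F G) (gB q F G) (gA1 q q1 F F1 G G1) (gB1 q q1 F F1 G G1)
      (gA2 q q1 q2 F F1 F2 G G1 G2) (gB2 q q1 q2 F F1 F2 G G1 G2) b)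
    (hl : 0 ≤ lam.re) (hμ : μ.im = lam.im) (hbR : 1 < bR) (hbb : b ≤ bR) (hκ1 : 1 ≤ κ)
    (hκ : κ ^ 2 ≤ 2 * gL d l) (hlam : ‖lam‖ ≤ gL d l / (4 * bR ^ 2))
    (hL1 : 128 * bR ^ 6 ≤ gL d l) (hL2 : X0 ^ 2 < gL d l / (4 * bR ^ 2))
    (hX0 : ∀ r ∈ Ioc 0 b, |gX q q1 r| ≤ X0) (hq : ∀ r, q r ≠ 0) (hc : 0 ≤ c)
    (hRm : 0 ≤ Rm) (hRb : Rm ≤ b)
    (hbd : BdAt d l lam q q1 F F1 G G1 (1 / (4 * bR) * κ)
      (κ ^ 2 * Real.exp (-(c * m)) * massN d F G Rm) b) :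
    ∀ r ∈ Ioc 0 b, gA q F G r = 0 ∧ gB q F G r = 0 := by
  have hb0 := S.hb
  have hbR0 : 0 < bR := by linarith
  have hL0 : 0 < gL d l := by have : 0 < bR ^ 6 := by positivity
                              linarith
  have hκ0 : 0 < κ := by linarith
  obtain ⟨a1, a2, -, -⟩ := big_k0 (b := b) (bR := bR) hl hL0 hb0 hbb hκ hlam
  obtain ⟨ku, eu, kv, ev, g1, g2, g3, g4, g5, g6⟩ := hbd
  have hhalf : κ / (2 * bR) - 1 / (4 * bR) * κ = κ / (4 * bR) := by field_simp; ring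
  have hku := re_ge_of_close a1 g3
  have hkv := re_ge_of_close a2 g4
  rw [hhalf] at hku hkv
  have hI : IntervalIntegrable (fun r => gM d q r * (normSq (gA q F G r)
      + normSq (gB q F G r))) volume 0 b :=
    BC.intble hb0 ((S.bcMA.add S.bcMB).congr fun r _ => by ring)
  have hmass := massN_le (d := d) (q := q) (F := F) (G := G) (ρ := Rm) (b := b)
    hRm hRb (fun r _ => hq r) hI
  have hMn0 := massN_nonneg (d := d) (F := F) (G := G) hRm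
  obtain ⟨J, hJ⟩ : ∃ J, J = ∫ r in (0 : ℝ)..b, gM d q r * (normSq (gA q F G r)
    + normSq (gB q F G r)) := ⟨_, rfl⟩
  rw [← hJ] at hmass
  have hexp : Real.exp (-(c * m)) ≤ 1 := by
    rw [Real.exp_le_one_iff]
    have : (0:ℝ) ≤ m := Nat.cast_nonneg m
    nlinarith
  have he0 : κ ^ 2 * Real.exp (-(c * m)) * massN d F G Rm ≤ κ ^ 2 * (2 * J) := by
    calc κ ^ 2 * Real.exp (-(c * m)) * massN d F G Rm
        ≤ κ ^ 2 * 1 * massN d F G Rm := by gcongr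
      _ ≤ κ ^ 2 * 1 * (2 * J) := by gcongr
      _ = _ := by ring
  refine H381.bigL S (V := gL d l / bR ^ 2) (X0 := X0) (κ := κ / (4 * bR)) (ε := 4 * κ ^ 2)
    (ku := ku) (kv := kv) (eu := eu) (ev := ev) (fun r hr => ?_) hX0 (by positivity) hku hkv
    (by rw [← gf_eq, ← gf1_eq]; exact g1) (by rw [← gf_eq', ← gf1_eq']; exact g2) ?_ ?_
  · have h1 : gL d l / bR ^ 2 ≤ gL d l / r ^ 2 := by
      have := hr.1
      have := hr.2.trans hbb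
      gcongr
    have h2 : 0 ≤ 2 * (m:ℝ) * normSq (q r) ^ m := by
      have := Complex.normSq_nonneg (q r)
      positivity
    refine ⟨?_, h1⟩
    unfold gVA
    linarith
  · rw [← hJ, mul_add, Complex.normSq_eq_norm_sq, Complex.normSq_eq_norm_sq,
      mul_comm (gM d q b), mul_comm (gM d q b)]
    calc ‖eu‖ ^ 2 * gM d q b + ‖ev‖ ^ 2 * gM d q b
        ≤ κ ^ 2 * (2 * J) + κ ^ 2 * (2 * J) := add_le_add (g5.trans he0) (g6.trans he0)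
      _ = 4 * κ ^ 2 * J := by ring
  · rw [hμ]
    have e2 : 4 * κ ^ 2 / (8 * (κ / (4 * bR))) = 2 * bR * κ := by field_simp; ring
    rw [e2]
    have e3 : 2 * bR * κ ≤ gL d l / (4 * bR ^ 2) := by
      rw [le_div_iff₀ (by positivity)]
      have h3 : (2 * bR * κ * (4 * bR ^ 2)) ^ 2 ≤ gL d l ^ 2 := by
        have e : (2 * bR * κ * (4 * bR ^ 2)) ^ 2 = 64 * bR ^ 6 * κ ^ 2 := by ring
        rw [e]
        calc 64 * bR ^ 6 * κ ^ 2 ≤ 64 * bR ^ 6 * (2 * gL d l) := by gcongr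
          _ = 128 * bR ^ 6 * gL d l := by ring
          _ ≤ gL d l * gL d l := by gcongr
          _ = gL d l ^ 2 := by ring
      exact (abs_le_of_sq_le_sq' h3 hL0.le).2
    have e5 : |lam.im| ≤ gL d l / (4 * bR ^ 2) := (Complex.abs_im_le_norm lam).trans hlam
    have hsb' : gL d l / bR ^ 2 = 4 * (gL d l / (4 * bR ^ 2)) := by field_simp
    have hp : 0 < gL d l / (4 * bR ^ 2) := by positivity
    rw [hsb']
    linarith

/-- The regime `L ≥ Λ1 (1+|lam|)^2`. -/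
theorem s1_big (h : UP d B m0 w R q) (hd : 3 ≤ d) (hK : 2 ≤ K) (hX : ThXS d)
    (hE : ExtE2 d K w R q) (Ce : ℕ) :
    ∃ (Λ1 : ℝ) (m1 : ℕ), 0 < Λ1 ∧ ∀ m, m1 ≤ m → ∀ (l : ℕ) (lam : ℂ), 0 ≤ lam.re →
      ‖lam‖ ≤ (m : ℝ) ^ Ce → Λ1 * (1 + ‖lam‖) ^ 2 ≤ gL d l → ∀ F G : ℝ → ℂ,
      EigPair d K m l (w m) (q m) lam F G → ∀ r > 0, F r = 0 ∧ G r = 0 := by
  obtain ⟨R1, hR1, R2, hRb⟩ := h.Rbd
  have hR12 : R1 ≤ R2 := (hRb m0 le_rfl).1.trans (hRb m0 le_rfl).2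
  obtain ⟨bR, hbR⟩ : ∃ bR, bR = R2 + 1 := ⟨_, rfl⟩
  have hbR1 : 1 < bR := by rw [hbR]; linarith
  have hbR0 : 0 < bR := by linarith
  obtain ⟨cq, hcq, Cq, mq, hbd⟩ := h.bd bR hbR0
  obtain ⟨ms, hsys⟩ := up_sysOn h hd hK bR hbR0
  obtain ⟨N, c, hc, mb, hbda⟩ := up_bdAt h (by omega) hX hE Ce (η := 1 / 2) (δ := 1)
    (c1 := 1 / (4 * bR ^ 2)) (ε := 1 / (4 * bR)) (by norm_num) (by positivity) (by positivity)
    (by norm_num)
  obtain ⟨X0, hX0⟩ : ∃ X0, X0 = bR / 2 + 2 * (|Cq| * bR / cq) := ⟨_, rfl⟩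
  refine ⟨|N| + 4 * bR ^ 2 + 128 * bR ^ 6 + 4 * bR ^ 2 * (X0 ^ 2 + 1) + 1,
    max (max mq ms) (max mb m0), by positivity, fun m hm l lam hl hlam hL F G hp => ?_⟩
  have hmq : mq ≤ m := le_trans (le_trans (le_max_left _ _) (le_max_left _ _)) hm
  have hms : ms ≤ m := le_trans (le_trans (le_max_right _ _) (le_max_left _ _)) hm
  have hmb : mb ≤ m := le_trans (le_trans (le_max_left _ _) (le_max_right _ _)) hm
  have hm0 : m0 ≤ m := le_trans (le_trans (le_max_right _ _) (le_max_right _ _)) hm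
  have hRm := hRb m hm0
  have hqne : ∀ r, q m r ≠ 0 := h.ne m hm0
  obtain ⟨b, hb⟩ : ∃ b, b = R m + 1 := ⟨_, rfl⟩
  have hb0 : 0 < b := by rw [hb]; linarith
  have hbb : b ≤ bR := by rw [hb, hbR]; linarith
  obtain ⟨n1, n2, n3, n4, n5, n6, n7⟩ := big_num (κ2 := kap2 d l lam) hbR1 (norm_nonneg lam) rfl hL
  have hκ2 : Real.sqrt (kap2 d l lam) ^ 2 = kap2 d l lam := Real.sq_sqrt (by linarith)
  have hκ1 : 1 ≤ Real.sqrt (kap2 d l lam) := Real.one_le_sqrt.2 n3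
  obtain ⟨-, -, e1, e2⟩ := big_k0 (lam := lam) (L := gL d l) (b := b) (bR := bR)
    (κ := Real.sqrt (kap2 d l lam)) hl n1 hb0 hbb (by rw [hκ2]; exact n2) n5
  rw [hκ2] at e1 e2
  obtain ⟨hbdat, hext⟩ := hbda m hmb l lam hl hlam n4 F G hp b (by rw [hb]; linarith)
    (by rw [hb]) e1 e2
  have hz := big_one (hsys m hms b hb0 hbb l lam F G hp) (bR := bR) (X0 := X0) (c := c)
    (κ := Real.sqrt (kap2 d l lam)) (Rm := R m + 2 * (1 / 2)) (lam := lam) hl (by simp) hbR1 hbb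
    hκ1 (by rw [hκ2]; exact n2) n5 n6 n7
    (fun r hr => by
      obtain ⟨f1, f2, f3, -, -⟩ := hbd m hmq r ⟨hr.1, hr.2.trans hbb⟩
      rw [hX0]
      exact gX_abs_le hcq hr.1 (hr.2.trans hbb) f1 f3)
    hqne hc.le (by linarith) (by rw [hb]; linarith) (by rw [hκ2]; exact hbdat)
  exact zero_of_AB_on (q := q m) (Rm := R m) (η := 1 / 2) (b := b) (by norm_num) (by linarith)
    (by rw [hb]; linarith) hqne hz hext

end

end Vale.Agent.P139.H607
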