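import Vale.Agent.P139.H607.S1Up
import Vale.Agent.P139.H399.BdryAt

/-!
# P139 [S1] : final assembly (helper607)
-/

namespace Vale.Agent.P139.H607

open Complex Set MeasureTheory Vale.Agent.P139.H498 Vale.Agent.P139.BU Vale.Agent.P139.H657
open Vale.Agent.P139.H399
open scoped ComplexConjugate ContDiff

noncomputable section

/-- statement of 657's `s1_core`. -/
def S1CoreStmt : Prop :=
  ∀ C : ℝ, 1 ≤ C → ∃ δ : ℝ, 0 < δ ∧ ∀ C2 c c3 η h : ℝ, 0 < C2 → 0 < c → 0 < c3 → 0 < η → 0 < h →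
    ∃ n0 K0 ε : ℝ, 1 ≤ n0 ∧ 1 ≤ K0 ∧ 0 < ε ∧
    ∀ (c0 : ℝ) (μ : ℂ) (M X VA VB M' X' VA' VB' : ℝ → ℝ) (A B A1 B1 A2 B2 : ℝ → ℂ)
      (b n L κ D eD e1 s0 r0 m1 : ℝ),
      SysOn c0 μ M X VA VB M' X' VA' VB' A B A1 B1 A2 B2 b →
      Coef C n L b X VA VB X' VA' VB' → 1 / C ≤ c0 → c0 ≤ C → 0 ≤ (μ + c0).re →
      Layer C n η δ b M VA VB s0 r0 m1 → n0 ≤ n → K0 ≤ κ → κ ^ 2 = 1 + ‖μ + c0‖ + L →
      h < b → (∀ r ∈ Icc (b - h) b, 1 / C ≤ M r ∧ M r ≤ C) →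
      (∀ r ∈ Icc (b - h) b, |M' r| ≤ C * M r) → (∀ r ∈ Icc (b - h) b, VA r - VB r ≤ e1) →
      0 ≤ e1 → 0 ≤ D → D ≤ eD * (I1 b M A + I1 b M B) → 0 ≤ eD → κ ^ 6 * eD ≤ ε →
      κ ^ 6 * e1 ≤ ε →
      BdOut C2 c c3 κ (L / b ^ 2) D (M b) (X b) (μ + c0) 1 (A b + I * B b) (A1 b + I * B1 b) →
      BdOut C2 c c3 κ (L / b ^ 2) D (M b) (X b) (μ + c0) (-1) (A b - I * B b)
        (A1 b - I * B1 b) →
      ((μ + c0).re ≤ c0 + 1 → c3 * κ ^ 2 ≤ L / b ^ 2 + (μ + c0).im ∨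
        c3 * κ ^ 2 ≤ L / b ^ 2 - (μ + c0).im) →
      ∀ r ∈ Ioc 0 b, A r = 0 ∧ B r = 0

/-- statement of 399's `bdry_unif` with one constant. -/
def BdryUStmt : Prop :=
  ∀ (r0 r1 g X0 c0 : ℝ), 0 < r0 → 0 < g → 0 ≤ X0 → 0 ≤ c0 →
    ∃ C c c3 c1 K0 : ℝ, 0 < C ∧ 0 < c ∧ 0 < c3 ∧ 0 < c1 ∧ 1 ≤ K0 ∧
      ∀ (ra : ℝ), r0 ≤ ra → ra + g ≤ r1 →
      ∀ (d l : ℕ) (lam : ℂ) (kap : ℝ), 0 ≤ gL d l → kap ^ 2 = 1 + ‖lam‖ + gL d l → K0 ≤ kap →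
        0 ≤ lam.re →
        ∃ b, (b = ra ∨ b = ra + g) ∧
          c1 * kap ^ 2 ≤ ‖((gL d l / b ^ 2 : ℝ) : ℂ) - I * lam‖ ∧
          c1 * kap ^ 2 ≤ ‖((gL d l / b ^ 2 : ℝ) : ℂ) + I * lam‖ ∧
          (lam.re ≤ c0 + 1 → c3 * kap ^ 2 ≤ gL d l / b ^ 2 + lam.im ∨
            c3 * kap ^ 2 ≤ gL d l / b ^ 2 - lam.im) ∧
          ∀ (q q1 F F1 G G1 : ℝ → ℂ) (δk D X : ℝ), δk ≤ c * kap → |X| ≤ X0 →
            BdAt d l lam q q1 F F1 G G1 δk D b →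
            BdOut C c c3 kap (gL d l / b ^ 2) D (gM d q b) X lam 1 (gf q F b)
              (gf1 q q1 F F1 b) ∧
            BdOut C c c3 kap (gL d l / b ^ 2) D (gM d q b) X lam (-1)
              (gf (fun r => conj (q r)) G b)
              (gf1 (fun r => conj (q r)) (fun r => conj (q1 r)) G G1 b)

variable {d K m0 : ℕ} {B : Set (ℝ × ℝ)} {w R : ℕ → ℝ} {q : ℕ → ℝ → ℂ}

/-- smallness of the two error quantities. -/
theorem small_num {κ2 Λ1 ν m cE ε e' : ℝ} {Ce : ℕ} (hm : 1 ≤ m) (hΛ : 0 < Λ1) (hν : 0 ≤ ν)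
    (hνm : ν ≤ m ^ Ce) (hκ : κ2 ≤ (1 + Λ1) * (1 + ν) ^ 2) (hκ0 : 0 ≤ κ2)
    (hexp : 2 * ((1 + Λ1) * 4) ^ 4 * m ^ (8 * Ce) * Real.exp (-(cE * m)) ≤ ε)
    (he' : e' = ε / (2 * ((1 + Λ1) * 4) ^ 3)) (hε : 0 < ε) :
    κ2 ^ 3 * (2 * κ2 * Real.exp (-(cE * m))) ≤ ε ∧
      κ2 ^ 3 * (2 * (e' / m ^ (6 * Ce))) ≤ ε := by
  have hm0 : 0 < m := by linarith
  have hmC : 1 ≤ m ^ Ce := one_le_pow₀ hm
  have h1 : κ2 ≤ ((1 + Λ1) * 4) * m ^ (2 * Ce) := by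
    have h2 : (1 + ν) ^ 2 ≤ (2 * m ^ Ce) ^ 2 := by gcongr; linarith
    calc κ2 ≤ (1 + Λ1) * (1 + ν) ^ 2 := hκ
      _ ≤ (1 + Λ1) * (2 * m ^ Ce) ^ 2 := by gcongr
      _ = ((1 + Λ1) * 4) * m ^ (2 * Ce) := by ring
  set Q : ℝ := (1 + Λ1) * 4 with hQ
  have hQ0 : 0 < Q := by positivity
  refine ⟨?_, ?_⟩
  · calc κ2 ^ 3 * (2 * κ2 * Real.exp (-(cE * m))) = 2 * κ2 ^ 4 * Real.exp (-(cE * m)) := by ring
      _ ≤ 2 * (Q * m ^ (2 * Ce)) ^ 4 * Real.exp (-(cE * m)) := by gcongr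
      _ = 2 * Q ^ 4 * m ^ (8 * Ce) * Real.exp (-(cE * m)) := by ring
      _ ≤ ε := hexp
  · have he0 : 0 ≤ e' := by rw [he']; positivity
    calc κ2 ^ 3 * (2 * (e' / m ^ (6 * Ce))) ≤ (Q * m ^ (2 * Ce)) ^ 3 * (2 * (e' / m ^ (6 * Ce))) := by
          gcongr
      _ = 2 * Q ^ 3 * e' := by field_simp; ring
      _ = ε := by rw [he']; field_simp

theorem exists_exp_small (A c ε : ℝ) (k : ℕ) (hc : 0 < c) (hε : 0 < ε) :
    ∃ m1 : ℕ, ∀ m : ℕ, m1 ≤ m → A * (m : ℝ) ^ k * Real.exp (-(c * m)) ≤ ε := by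
  have h1 : Filter.Tendsto (fun x : ℝ => x ^ k * Real.exp (-(c * x))) Filter.atTop
      (nhds 0) := by
    have := Real.tendsto_pow_mul_exp_neg_atTop_nhds_zero k
    have h2 := this.comp (Filter.tendsto_id.const_mul_atTop hc)
    have h3 : Filter.Tendsto (fun x : ℝ => (1 / c) ^ k * ((c * x) ^ k * Real.exp (-(c * x))))
        Filter.atTop (nhds ((1 / c) ^ k * 0)) := h2.const_mul _
    rw [mul_zero] at h3
    refine h3.congr fun x => ?_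
    rw [mul_pow, ← mul_assoc, ← mul_assoc, ← mul_pow, one_div, inv_mul_cancel₀ hc.ne', one_pow,
      one_mul]
  have h2 : Filter.Tendsto (fun x : ℝ => A * x ^ k * Real.exp (-(c * x))) Filter.atTop
      (nhds 0) := by
    have := h1.const_mul A
    rw [mul_zero] at this
    refine this.congr fun x => ?_
    ring
  have h3 := h2.comp (tendsto_natCast_atTop_atTop (R := ℝ))
  obtain ⟨m1, hm1⟩ := Filter.eventually_atTop.1 (h3.eventually (ge_mem_nhds hε))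
  exact ⟨m1, fun m hm => hm1 m hm⟩

theorem massN_le_I1 {q F G : ℝ → ℂ} {ρ b : ℝ} (hρ : 0 ≤ ρ) (hρb : ρ ≤ b)
    (hq : ∀ r, q r ≠ 0)
    (iA : IntervalIntegrable (fun r => gM d q r * normSq (gA q F G r)) volume 0 b)
    (iB : IntervalIntegrable (fun r => gM d q r * normSq (gB q F G r)) volume 0 b) :
    massN d F G ρ ≤ 2 * (I1 b (gM d q) (gA q F G) + I1 b (gM d q) (gB q F G)) := by
  have h1 := massN_le (d := d) (q := q) (F := F) (G := G) (ρ := ρ) (b := b)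
    hρ hρb (fun r _ => hq r) ((iA.add iB).congr (fun r _ => by ring))
  refine h1.trans (le_of_eq ?_)
  unfold I1
  rw [← intervalIntegral.integral_add iA iB]
  congr 1
  refine intervalIntegral.integral_congr fun r _ => ?_
  show gM d q r * (normSq (gA q F G r) + normSq (gB q F G r)) = _
  ring

/-- `S1CoreStmt` for one pair in the gauge. -/
theorem core_gauge {C δ1 η hh C2 c c3 n0 K0 ε : ℝ}
    (hcr : ∀ (c0 : ℝ) (μ : ℂ) (M X VA VB M' X' VA' VB' : ℝ → ℝ) (A B A1 B1 A2 B2 : ℝ → ℂ)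
      (b n L κ D eD e1 s0 r0 m1 : ℝ),
      SysOn c0 μ M X VA VB M' X' VA' VB' A B A1 B1 A2 B2 b →
      Coef C n L b X VA VB X' VA' VB' → 1 / C ≤ c0 → c0 ≤ C → 0 ≤ (μ + c0).re →
      Layer C n η δ1 b M VA VB s0 r0 m1 → n0 ≤ n → K0 ≤ κ → κ ^ 2 = 1 + ‖μ + c0‖ + L →
      hh < b → (∀ r ∈ Icc (b - hh) b, 1 / C ≤ M r ∧ M r ≤ C) →
      (∀ r ∈ Icc (b - hh) b, |M' r| ≤ C * M r) → (∀ r ∈ Icc (b - hh) b, VA r - VB r ≤ e1) →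
      0 ≤ e1 → 0 ≤ D → D ≤ eD * (I1 b M A + I1 b M B) → 0 ≤ eD → κ ^ 6 * eD ≤ ε →
      κ ^ 6 * e1 ≤ ε →
      BdOut C2 c c3 κ (L / b ^ 2) D (M b) (X b) (μ + c0) 1 (A b + I * B b) (A1 b + I * B1 b) →
      BdOut C2 c c3 κ (L / b ^ 2) D (M b) (X b) (μ + c0) (-1) (A b - I * B b)
        (A1 b - I * B1 b) →
      ((μ + c0).re ≤ c0 + 1 → c3 * κ ^ 2 ≤ L / b ^ 2 + (μ + c0).im ∨
        c3 * κ ^ 2 ≤ L / b ^ 2 - (μ + c0).im) →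
      ∀ r ∈ Ioc 0 b, A r = 0 ∧ B r = 0)
    {c0 : ℝ} {lam : ℂ} {M X VA VB M' X' VA' VB' : ℝ → ℝ} {A2 B2 : ℝ → ℂ}
    {q q1 F F1 G G1 : ℝ → ℂ} {b n L κ D eD e1 s0 r0 m1 : ℝ}
    (S : SysOn c0 (lam - (c0 : ℂ)) M X VA VB M' X' VA' VB' (gA q F G) (gB q F G)
      (gA1 q q1 F F1 G G1) (gB1 q q1 F F1 G G1) A2 B2 b)
    (v1 : Coef C n L b X VA VB X' VA' VB') (u3 : 1 / C ≤ c0) (u4 : c0 ≤ C) (hl : 0 ≤ lam.re)
    (hLay : Layer C n η δ1 b M VA VB s0 r0 m1) (hn : n0 ≤ n) (hK : K0 ≤ κ)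
    (hκ : κ ^ 2 = 1 + ‖lam‖ + L) (hhb : hh < b)
    (w1 : ∀ r ∈ Icc (b - hh) b, 1 / C ≤ M r ∧ M r ≤ C)
    (w2 : ∀ r ∈ Icc (b - hh) b, |M' r| ≤ C * M r)
    (w3 : ∀ r ∈ Icc (b - hh) b, VA r - VB r ≤ e1)
    (he1 : 0 ≤ e1) (hD0 : 0 ≤ D) (hD : D ≤ eD * (I1 b M (gA q F G) + I1 b M (gB q F G)))
    (heD : 0 ≤ eD) (s1 : κ ^ 6 * eD ≤ ε) (s2 : κ ^ 6 * e1 ≤ ε)
    (o1 : BdOut C2 c c3 κ (L / b ^ 2) D (M b) (X b) lam 1 (gf q F b) (gf1 q q1 F F1 b))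
    (o2 : BdOut C2 c c3 κ (L / b ^ 2) D (M b) (X b) lam (-1) (gf (fun r => conj (q r)) G b)
      (gf1 (fun r => conj (q r)) (fun r => conj (q1 r)) G G1 b))
    (hnb : lam.re ≤ c0 + 1 → c3 * κ ^ 2 ≤ L / b ^ 2 + lam.im ∨
        c3 * κ ^ 2 ≤ L / b ^ 2 - lam.im) :
    ∀ r ∈ Ioc 0 b, gA q F G r = 0 ∧ gB q F G r = 0 := by
  refine hcr c0 (lam - (c0 : ℂ)) M X VA VB M' X' VA' VB' _ _ _ _ _ _ b n L κ D eD e1 s0 r0 m1 S v1
    u3 u4 ?_ hLay hn hK ?_ hhb w1 w2 w3 he1 hD0 hD heD s1 s2 ?_ ?_ ?_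
  · rw [sub_add_cancel]; exact hl
  · rw [sub_add_cancel]; exact hκ
  · rw [sub_add_cancel, ← gf_eq, ← gf1_eq]; exact o1
  · rw [sub_add_cancel, ← gf_eq', ← gf1_eq']; exact o2
  · rw [sub_add_cancel]; exact hnb

theorem win_e1 {l m Ce : ℕ} {q : ℝ → ℂ} {r e' : ℝ} (hmr : (1 : ℝ) ≤ m)
    (g1 : (m : ℝ) ^ (6 * Ce + 1) * normSq (q r) ^ m ≤ e') :
    gVA d m l q r - gVB d l r ≤ 2 * (e' / (m : ℝ) ^ (6 * Ce)) := by
  have e2 : gVA d m l q r - gVB d l r = 2 * (m * normSq (q r) ^ m) := by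
    simp only [gVA, gVB]; ring
  rw [e2]
  refine mul_le_mul_of_nonneg_left ?_ (by norm_num)
  have hm : (0 : ℝ) < m := by linarith
  rw [le_div_iff₀ (by positivity)]
  calc (m : ℝ) * normSq (q r) ^ m * (m : ℝ) ^ (6 * Ce)
      = (m : ℝ) ^ (6 * Ce + 1) * normSq (q r) ^ m := by ring
    _ ≤ e' := g1

set_option maxHeartbeats 1000000 in
/-- [S1], from the remaining inputs. -/
theorem s1_final_of (hcore : S1CoreStmt) (hbdy : BdryUStmt) (h : UP d B m0 w R q) (hd : 3 ≤ d)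
    (hK : 2 ≤ K) (hX : ThXS d) (hE1 : ExtE1 d K w q) (hE : ExtE2 d K w R q) :
    S1Out d K w q := by
  obtain ⟨Ce, me, hE1'⟩ := hE1
  obtain ⟨Λ1, mB, hΛ1, hbig⟩ := s1_big h hd hK hX hE Ce
  obtain ⟨C, δ0, η, hC, hδ0, hη, mU, hmU, hU⟩ := up_coef h hd
  have hC0 : 0 < C := by linarith
  obtain ⟨δ1, hδ1, hcore1⟩ := hcore C hC
  obtain ⟨δ, hδ⟩ : ∃ δ, δ = min δ0 δ1 := ⟨_, rfl⟩
  have hδp : 0 < δ := by rw [hδ]; exact lt_min hδ0 hδ1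
  have hδa : δ ≤ δ0 := by rw [hδ]; exact min_le_left _ _
  have hδb : δ ≤ δ1 := by rw [hδ]; exact min_le_right _ _
  obtain ⟨C2, c, c3, c1, K1, hC2, hc, hc3, hc1, hK1, hbd⟩ := hbdy (2 * η) C (δ / 2) C C
    (by positivity) (by positivity) hC0.le hC0.le
  obtain ⟨n0, K0, ε, hn0, hK0, hε, hcr⟩ := hcore1 C2 c c3 η (δ / 4) hC2 hc hc3 hη (by positivity)
  obtain ⟨N, cE, hcE, mE, hbdat⟩ := up_bdAt h (by omega) hX hE Ce (η := δ / 8) (δ := δ)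
    (c1 := c1) (ε := c) (by positivity) hc1 hc (by linarith)
  obtain ⟨mS, hsys⟩ := up_sysOn h hd hK C hC0
  obtain ⟨mx, hmx⟩ := exists_exp_small (2 * ((1 + Λ1) * 4) ^ 4) cE ε (8 * Ce) hcE hε
  obtain ⟨e', he'⟩ : ∃ e', e' = ε / (2 * ((1 + Λ1) * 4) ^ 3) := ⟨_, rfl⟩
  have he'0 : 0 < e' := by rw [he']; positivity
  obtain ⟨ms, hms, hsmall⟩ := h.small_out (η := δ / 4) (b := C) (ε := e') (by positivity) he'0
    (6 * Ce + 1)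
  obtain ⟨mn, hmn⟩ := exists_nat_ge n0
  refine ⟨max (max (K0 ^ 2) (K1 ^ 2)) N,
    max (max (max me mB) (max mU mE)) (max (max mS mx) (max ms mn)),
    fun m hm l lam hl hΛ F G hp => ?_⟩
  simp only [ge_iff_le, max_le_iff] at hm hΛ
  obtain ⟨⟨⟨i1, i2⟩, ⟨i3, i4⟩⟩, ⟨⟨i5, i6⟩, ⟨i7, i8⟩⟩⟩ := hm
  obtain ⟨⟨j1, j2⟩, j3⟩ := hΛ
  by_cases hlam : (m : ℝ) ^ Ce < ‖lam‖
  · exact hE1' m i1 l lam hl hlam F G hp
  push Not at hlam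
  by_cases hLb : Λ1 * (1 + ‖lam‖) ^ 2 ≤ gL d l
  · exact hbig m i2 l lam hl hlam hLb F G hp
  push Not at hLb
  have hm0 : m0 ≤ m := hmU.trans i3
  have hm1 : 1 ≤ m := h.m0_pos.trans hm0
  have hmr : (1 : ℝ) ≤ m := by exact_mod_cast hm1
  obtain ⟨u1, u2, u3, u4, u5⟩ := hU m i3
  have hL0 := gL_nonneg (d := d) (by omega) l
  have hn0' := norm_nonneg lam
  have hk1 : 1 ≤ kap2 d l lam := one_le_kap2 (by omega) l lam
  obtain ⟨κ, hκ⟩ : ∃ κ, κ = Real.sqrt (kap2 d l lam) := ⟨_, rfl⟩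
  have hκ2 : κ ^ 2 = kap2 d l lam := by rw [hκ]; exact Real.sq_sqrt (by linarith)
  have hκ1 : 1 ≤ κ := by rw [hκ]; exact Real.one_le_sqrt.2 hk1
  have hκ0 : 0 < κ := by linarith
  have hκe : κ ^ 2 = 1 + ‖lam‖ + gL d l := hκ2
  have hK0κ : K0 ≤ κ := (abs_le_of_sq_le_sq' (by rw [hκ2]; exact j1) hκ0.le).2
  have hK1κ : K1 ≤ κ := (abs_le_of_sq_le_sq' (by rw [hκ2]; exact j2) hκ0.le).2
  -- the radius
  obtain ⟨b, hb, nd1, nd2, hnb, hbo⟩ := hbd (R m + δ / 2) (by linarith) (by linarith)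
    d l lam κ hL0 hκe hK1κ hl
  have hb1 : R m + δ / 2 ≤ b := by rcases hb with h | h <;> rw [h]; linarith
  have hb2 : b ≤ R m + δ := by rcases hb with h | h <;> rw [h] <;> linarith
  have hRm0 : 0 < R m := by linarith
  have hb0 : 0 < b := by linarith
  have hbC : b ≤ C := by linarith
  obtain ⟨v1, v2, v3, v4⟩ := u5 l b (by linarith) (by linarith)
  obtain ⟨M1, hLay⟩ := v2 δ1 (by linarith)
  rw [hκ2] at nd1 nd2
  obtain ⟨hB1, hext⟩ := hbdat m i4 l lam hl hlam j3 F G hp b (by linarith) hb2 nd1 nd2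
  rw [← hκ] at hB1
  have S := hsys m i5 b hb0 hbC l lam F G hp
  have hqne : ∀ r, q m r ≠ 0 := h.ne m hm0
  obtain ⟨D, hD⟩ : ∃ D, D = kap2 d l lam * Real.exp (-(cE * m))
    * massN d F G (R m + 2 * (δ / 8)) := ⟨_, rfl⟩
  rw [← hD] at hB1
  have hD0 : 0 ≤ D := by
    rw [hD]
    have := massN_nonneg (d := d) (F := F) (G := G) (ρ := R m + 2 * (δ / 8)) (by linarith)
    have := (Real.exp_pos (-(cE * m))).le
    positivity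
  obtain ⟨o1, o2⟩ := hbo (q m) (deriv (q m)) F (deriv F) G (deriv G) (c * κ) D
    (gX (q m) (deriv (q m)) b) le_rfl (v4 b ⟨hb0, le_rfl⟩) hB1
  -- mass
  have iA : IntervalIntegrable (fun r => gM d (q m) r * normSq (gA (q m) F G r)) volume 0 b :=
    BC.intble hb0 S.bcMA
  have iB : IntervalIntegrable (fun r => gM d (q m) r * normSq (gB (q m) F G r)) volume 0 b :=
    BC.intble hb0 S.bcMB
  have hmass := massN_le_I1 (d := d) (q := q m) (F := F) (G := G) (ρ := R m + 2 * (δ / 8))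
    (b := b) (by linarith) (by linarith) hqne iA iB
  have hDle : D ≤ 2 * kap2 d l lam * Real.exp (-(cE * m)) * (I1 b (gM d (q m)) (gA (q m) F G)
      + I1 b (gM d (q m)) (gB (q m) F G)) := by
    rw [hD]
    calc kap2 d l lam * Real.exp (-(cE * m)) * massN d F G (R m + 2 * (δ / 8))
        ≤ kap2 d l lam * Real.exp (-(cE * m)) * (2 * (I1 b (gM d (q m)) (gA (q m) F G)
          + I1 b (gM d (q m)) (gB (q m) F G))) := by gcongr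
      _ = _ := by ring
  -- smallness
  have hκΛ : kap2 d l lam ≤ (1 + Λ1) * (1 + ‖lam‖) ^ 2 := by
    unfold kap2
    nlinarith
  obtain ⟨s1, s2⟩ := small_num (κ2 := kap2 d l lam) (Λ1 := Λ1) (ν := ‖lam‖) (m := (m : ℝ))
    (cE := cE) (ε := ε) (e' := e') (Ce := Ce) hmr hΛ1 hn0' hlam hκΛ (by linarith) (hmx m i6) he' hε
  rw [← hκ2] at s1 s2
  have e6 : (κ ^ 2) ^ 3 = κ ^ 6 := by ring
  rw [e6] at s1 s2
  rw [hκ2] at s1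
  have hz := core_gauge hcr S v1 u3 u4 hl hLay
    (by have : n0 ≤ m := hmn.trans (by exact_mod_cast i8)
        linarith)
    hK0κ hκe (by linarith)
    (fun r hr => by
      obtain ⟨g1, g2, -⟩ := v3 r ⟨by linarith [hr.1], hr.2⟩
      exact ⟨g1, g2⟩)
    (fun r hr => (v3 r ⟨by linarith [hr.1], hr.2⟩).2.2)
    (fun r hr => by
      obtain ⟨g1, -⟩ := hsmall m i7 r ⟨by linarith [hr.1], hr.2.trans hbC⟩
      exact win_e1 hmr g1)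
    (by positivity) hD0 hDle (by positivity) s1 s2 o1 o2 (fun hre => hnb (by linarith))
  exact zero_of_AB_on (q := q m) (Rm := R m) (η := δ / 8) (b := b) (by positivity) hRm0
    (by linarith) hqne hz hext

end

end Vale.Agent.P139.H607
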