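import Vale.Agent.P139.H607.S1Final
import Vale.Agent.P139.H657.S1Core2
import Vale.Agent.P139.H399.BdryUnif
import Vale.Agent.P139.H355.ThXSpec
import Vale.Agent.P139.H504.E1
import Vale.Agent.P139.H700.SSpec

/-!
# P139 [S1] : the high frequency exclusion from `UP` and the exterior representation (helper607)
-/

namespace Vale.Agent.P139.H607

open Complex Set MeasureTheory Vale.Agent.P139.H498 Vale.Agent.P139.BU Vale.Agent.P139.H657
open Vale.Agent.P139.H399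
open scoped ComplexConjugate ContDiff

noncomputable section

theorem s1CoreStmt : S1CoreStmt := by
  intro C hC
  obtain ⟨δ, hδ, H⟩ := s1_core hC
  refine ⟨δ, hδ, fun C2 c c3 η h hC2 hc hc3 hη hh => ?_⟩
  obtain ⟨n0, K0, ε, hn0, hK0, hε, G⟩ := H C2 c c3 η h hC2 hc hc3 hη hh
  refine ⟨n0, K0, ε, hn0, hK0, hε, ?_⟩
  intro c0 μ M X VA VB M' X' VA' VB' A B A1 B1 A2 B2 b n L κ D eD e1 s0 r0 m1
  exact G

theorem bdOut_mono {C0 C c c3 kap s D Mb X σ : ℝ} {lam w w1 : ℂ}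
    (h : BdOut' C0 C c c3 kap s D Mb X lam σ w w1) (hD : 0 ≤ D) (hM : 0 ≤ Mb) (hk : 0 ≤ kap) :
    BdOut (max C0 C) c c3 kap s D Mb X lam σ w w1 := by
  have h1 : C0 ≤ max C0 C := le_max_left _ _
  have h2 : C ≤ max C0 C := le_max_right _ _
  have hn := Complex.normSq_nonneg w
  have hS : 0 ≤ Mb * normSq w := mul_nonneg hM hn
  have hCD : C * D ≤ max C0 C * D := mul_le_mul_of_nonneg_right h2 hD
  refine ⟨?_, fun hh => (h.ev hh).trans hCD, fun hh => ?_, fun hh => ?_, fun hh hr => ?_⟩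
  · have e : C0 * kap ^ 2 * (Mb * normSq w) ≤ max C0 C * kap ^ 2 * (Mb * normSq w) := by gcongr
    linarith [h.T_le]
  · exact (h.nu hh).trans (mul_le_mul_of_nonneg_right h1 (norm_nonneg _))
  · linarith [h.os hh]
  · have e : C * kap * D ≤ max C0 C * kap * D := by gcongr
    linarith [h.en hh hr]

theorem bdryUStmt : BdryUStmt := by
  intro r0 r1 g X0 c0 hr0 hg hX0 hc0
  obtain ⟨C0, hC0, H⟩ := bdry_unif (r0 := r0) (r1 := r1) (X0 := X0) (c0 := c0) hr0 hX0 hc0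
  obtain ⟨C, c, c3, c1, K0, hC, hc, hc3, hc1, hK0, G⟩ := H g hg
  refine ⟨max C0 C, c, c3, c1, K0, lt_max_of_lt_right hC, hc, hc3, hc1, hK0, ?_⟩
  intro ra hra hra1 d l lam kap hL hkap hK hre
  obtain ⟨b, hb, n1, n2, n3, n4⟩ := G ra hra hra1 d l lam kap hL hkap hK hre
  refine ⟨b, hb, n1, n2, n3, ?_⟩
  intro q q1 F F1 G' G1 δk D X h1 h2 h3
  obtain ⟨o1, o2⟩ := n4 q q1 F F1 G' G1 δk D X h1 h2 h3
  have hb0 : 0 ≤ b := by rcases hb with h | h <;> rw [h] <;> linarith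
  have hM : 0 ≤ gM d q b := by
    unfold gM
    exact mul_nonneg (Complex.normSq_nonneg _) (pow_nonneg hb0 _)
  have hD : 0 ≤ D := by
    obtain ⟨ku, eu, kv, ev, -, -, -, -, g5, -⟩ := h3
    exact le_trans (mul_nonneg (sq_nonneg _) hM) g5
  have hk : 0 ≤ kap := by linarith
  exact ⟨bdOut_mono o1 hD hM hk, bdOut_mono o2 hD hM hk⟩

variable {d K m0 : ℕ} {B : Set (ℝ × ℝ)} {w R : ℕ → ℝ} {q : ℕ → ℝ → ℂ}

/-- **[S1]**: no eigenpair with `1 + |lam| + l(l+d-2)` large, uniformly in `m`. -/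
theorem s1_final (h : UP d B m0 w R q) (hd : 4 ≤ d) (hK : 2 * (d + 5) ≤ K)
    (hE : ExtE2 d K w R q) : S1Out d K w q :=
  s1_final_of s1CoreStmt bdryUStmt h (by omega) (by omega) (H355.thXS hd)
    (H504.extE1 (by omega) h hK) hE

/-- the output in helper700's form. -/
theorem s1_out (h : UP d B m0 w R q) (hd : 4 ≤ d) (hK : 2 * (d + 5) ≤ K)
    (hE : ExtE2 d K w R q) : H700.S1Out d w q := by
  obtain ⟨Λ0, m1, H⟩ := s1_final h hd hK hE
  refine ⟨m1, Λ0, fun m hm => ⟨K, fun l lam hl hL F G hF hG h1 h2 => ?_⟩⟩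
  refine H m hm l lam hl (hL.trans ?_) F G ⟨hF, hG, h1, h2⟩
  unfold kap2 gL
  have h3 : (0 : ℝ) ≤ l := Nat.cast_nonneg l
  have h4 : (4 : ℝ) ≤ d := by exact_mod_cast hd
  rcases Nat.eq_zero_or_pos l with h5 | h5
  · subst h5; simp
  · have h6 : (1 : ℝ) ≤ l := by exact_mod_cast h5
    nlinarith [norm_nonneg lam]

end

end Vale.Agent.P139.H607
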