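import Vale.Agent.P139.H607.S1Spec
import Vale.Agent.P139.H498.Int6

/-!
# P139 [S1] : preparation of the data (helper607)

`up_sysOn` : an eigenpair of the `m`-th profile gives 498's `SysOn` on `(0,b]`.
`up_bdAt`  : Theorem X + exterior representation give the boundary data `BdAt` on `[R_m+η, R_m+δ]`.
-/

namespace Vale.Agent.P139.H607

open Complex Set Vale.Agent.P139.H498 Vale.Agent.P139.BU
open scoped ComplexConjugate ContDiff

noncomputable section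

variable {d K m0 : ℕ} {B : Set (ℝ × ℝ)} {w R : ℕ → ℝ} {q : ℕ → ℝ → ℂ}

theorem up_contDiff (h : UP d B m0 w R q) {m : ℕ} (hm : m0 ≤ m) : ContDiff ℝ ∞ (q m) := by
  obtain ⟨g, hg, hq⟩ := h.rad m hm
  have : q m = fun r => g (r ^ 2) := funext hq
  rw [this]
  exact hg.comp (contDiff_id.pow 2)

theorem up_hasDeriv (h : UP d B m0 w R q) {m : ℕ} (hm : m0 ≤ m) (r : ℝ) :
    HasDerivAt (q m) (deriv (q m) r) r ∧
      HasDerivAt (deriv (q m)) (deriv (deriv (q m)) r) r := by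
  have hc := up_contDiff h hm
  have h1 : ContDiff ℝ ∞ (deriv (q m)) := by
    have := (contDiff_infty_iff_deriv (f := q m)).1 hc
    exact this.2
  exact ⟨(hc.differentiable (by norm_num) r).hasDerivAt,
    (h1.differentiable (by norm_num) r).hasDerivAt⟩

theorem up_q2of (h : UP d B m0 w R q) {m : ℕ} (hm : m0 ≤ m) {r : ℝ} (hr : 0 < r) :
    deriv (deriv (q m)) r = q2of d m (w m) (q m) (deriv (q m)) r := by
  have e := h.ode m hm r hr
  unfold q2of
  rw [← e]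
  push_cast
  ring

/-- The radial system of an eigenpair, in the gauge, on `(0,b]`. -/
theorem up_sysOn (h : UP d B m0 w R q) (hd : 3 ≤ d) (hK : 2 ≤ K) (b : ℝ) (hb : 0 < b) :
    ∃ m1 : ℕ, ∀ m, m1 ≤ m → ∀ b' : ℝ, 0 < b' → b' ≤ b → ∀ (l : ℕ) (lam : ℂ) (F G : ℝ → ℂ),
      EigPair d K m l (w m) (q m) lam F G →
      SysOn ((d : ℝ) / 4 - aa m) (lam - (((d : ℝ) / 4 - aa m : ℝ) : ℂ)) (gM d (q m))
        (gX (q m) (deriv (q m))) (gVA d m l (q m)) (gVB d l) (gM' d (q m) (deriv (q m)))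
        (gX' (q m) (deriv (q m)) (q2of d m (w m) (q m) (deriv (q m))))
        (gVA' d m l (q m) (deriv (q m))) (gVB' d l) (gA (q m) F G) (gB (q m) F G)
        (gA1 (q m) (deriv (q m)) F (deriv F) G (deriv G))
        (gB1 (q m) (deriv (q m)) F (deriv F) G (deriv G))
        (gA2 (q m) (deriv (q m)) (q2of d m (w m) (q m) (deriv (q m))) F (deriv F)
          (deriv (deriv F)) G (deriv G) (deriv (deriv G)))
        (gB2 (q m) (deriv (q m)) (q2of d m (w m) (q m) (deriv (q m))) F (deriv F)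
          (deriv (deriv F)) G (deriv G) (deriv (deriv G))) b' := by
  obtain ⟨c, hc, C, m1, hbd⟩ := h.bd b hb
  refine ⟨max m1 m0, fun m hm b' hb' hb'b l lam F G hp => ?_⟩
  have hm1 : m1 ≤ m := le_trans (le_max_left _ _) hm
  have hm0 : m0 ≤ m := le_trans (le_max_right _ _) hm
  refine sysOn_of_radAdm (C := C) hd (h.m0_pos.trans hm0) hK hb' hc
    (fun r _ => (up_hasDeriv h hm0 r).1)
    (fun r hr => by rw [← up_q2of h hm0 hr.1]; exact (up_hasDeriv h hm0 r).2)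
    (fun r hr => ?_) hp.hF hp.hG hp.e1 hp.e2
  obtain ⟨h1, h2, h3, -, -⟩ := hbd m hm1 r ⟨hr.1, hr.2.trans hb'b⟩
  exact ⟨h1, h2, h3⟩

theorem gL_nonneg (hd : 2 ≤ d) (l : ℕ) : 0 ≤ gL d l := by
  unfold gL
  have : (2 : ℝ) ≤ d := by exact_mod_cast hd
  have h2 : (0 : ℝ) ≤ l := Nat.cast_nonneg l
  apply mul_nonneg h2
  linarith

theorem one_le_kap2 (hd : 2 ≤ d) (l : ℕ) (lam : ℂ) : 1 ≤ kap2 d l lam := by
  unfold kap2
  have := gL_nonneg hd l
  have := norm_nonneg lam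
  linarith

theorem k0_norm_le_kap (hd : 2 ≤ d) (l : ℕ) (lam : ℂ) {ra r : ℝ} (hra : 0 < ra) (hr : ra ≤ r) :
    ‖k0 lam (gL d l / r ^ 2)‖ ≤ (1 + 1 / ra) * Real.sqrt (kap2 d l lam) := by
  have hL := gL_nonneg hd l
  have hr0 : 0 < r := lt_of_lt_of_le hra hr
  have h1 := k0_norm_sq_le lam (s := gL d l / r ^ 2) (by positivity)
  have h2 : gL d l / r ^ 2 ≤ gL d l / ra ^ 2 := by gcongr
  have h3 : ‖k0 lam (gL d l / r ^ 2)‖ ^ 2 ≤ ((1 + 1 / ra) * Real.sqrt (kap2 d l lam)) ^ 2 := by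
    rw [mul_pow, Real.sq_sqrt (le_trans zero_le_one (one_le_kap2 hd l lam))]
    have h4 : 1 ≤ (1 + 1 / ra) ^ 2 := by
      have : 0 < 1 / ra := by positivity
      nlinarith
    have h5 : 1 / ra ^ 2 ≤ (1 + 1 / ra) ^ 2 := by
      have : 0 < 1 / ra := by positivity
      have e : 1 / ra ^ 2 = (1 / ra) ^ 2 := by rw [div_pow, one_pow]
      rw [e]; nlinarith
    unfold kap2
    have hl := norm_nonneg lam
    calc ‖k0 lam (gL d l / r ^ 2)‖ ^ 2 ≤ gL d l / ra ^ 2 + ‖lam‖ := by linarith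
      _ = 1 / ra ^ 2 * gL d l + 1 * ‖lam‖ := by ring
      _ ≤ (1 + 1 / ra) ^ 2 * gL d l + (1 + 1 / ra) ^ 2 * ‖lam‖ := by gcongr
      _ ≤ (1 + 1 / ra) ^ 2 * (1 + ‖lam‖ + gL d l) := by nlinarith
  exact (abs_le_of_sq_le_sq' h3 (by positivity)).2

/-- Boundary data from the exterior description and Theorem X. -/
theorem up_bdAt (h : UP d B m0 w R q) (hd : 2 ≤ d) (hX : ThXS d) (hE : ExtE2 d K w R q) (Ce : ℕ)
    {η δ c1 ε : ℝ} (hη : 0 < η) (hc1 : 0 < c1) (hε : 0 < ε) (hηδ : η ≤ δ) :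
    ∃ N : ℝ, ∃ c > 0, ∃ m1 : ℕ, ∀ m, m1 ≤ m → ∀ (l : ℕ) (lam : ℂ), 0 ≤ lam.re →
      ‖lam‖ ≤ (m : ℝ) ^ Ce → N ≤ kap2 d l lam → ∀ F G : ℝ → ℂ,
      EigPair d K m l (w m) (q m) lam F G → ∀ r : ℝ, R m + η ≤ r → r ≤ R m + δ →
      c1 * kap2 d l lam ≤ ‖((gL d l / r ^ 2 : ℝ) : ℂ) - I * lam‖ →
      c1 * kap2 d l lam ≤ ‖((gL d l / r ^ 2 : ℝ) : ℂ) + I * lam‖ →
      BdAt d l lam (q m) (deriv (q m)) F (deriv F) G (deriv G)
        (ε * Real.sqrt (kap2 d l lam))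
        (kap2 d l lam * Real.exp (-(c * m)) * massN d F G (R m + 2 * η)) r ∧
      (massN d F G (R m + 2 * η) = 0 → F r = 0 → G r = 0 →
        ∀ r' : ℝ, R m + η ≤ r' → F r' = 0 ∧ G r' = 0) := by
  obtain ⟨w1, hw1, hwb⟩ := h.wbd
  obtain ⟨R1, hR1, R2, hRb⟩ := h.Rbd
  obtain ⟨cq, hcq, Cq, mq, hbd⟩ := h.bd (R2 + δ + R1) (by
    have := hRb m0 le_rfl; linarith)
  obtain ⟨N, hN⟩ := hX R1 (R2 + δ + R1) 1 c1 (ε / 2) hR1 (by
    have := hRb m0 le_rfl; linarith) hc1 (by positivity)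
  obtain ⟨c, hc, me, hext⟩ := hE Ce η hη
  have hb0 : 0 < R2 + δ + R1 := by have := hRb m0 le_rfl; linarith
  set b := R2 + δ + R1 with hb
  set CQ : ℝ := |Cq| * b / cq with hCQ
  have hCQ0 : 0 ≤ CQ := by positivity
  set KK : ℝ := 1 + ((1 + 1 / R1) + ε / 2) with hKK
  have hKK0 : 0 ≤ KK := by positivity
  -- exp(-c m) * (KK^2 b^(d-1)) ≤ 1 eventually
  obtain ⟨mx, hmx⟩ : ∃ mx : ℕ, ∀ m, mx ≤ m → KK ^ 2 * b ^ (d - 1) ≤ Real.exp (c * m) := by
    have ht : Filter.Tendsto (fun m : ℕ => Real.exp (c * m)) Filter.atTop Filter.atTop :=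
      Real.tendsto_exp_atTop.comp (tendsto_natCast_atTop_atTop.const_mul_atTop hc)
    obtain ⟨mx, hmx⟩ := Filter.eventually_atTop.1 (ht.eventually_ge_atTop (KK ^ 2 * b ^ (d - 1)))
    exact ⟨mx, fun m hm => hmx m hm⟩
  refine ⟨max N ((2 * CQ / ε) ^ 2), c, hc, max (max m0 mq) (max me mx),
    fun m hm l lam hl hlam hk F G hp r hr1 hr2 hnd1 hnd2 => ?_⟩
  have hm0 : m0 ≤ m := le_trans (le_trans (le_max_left _ _) (le_max_left _ _)) hm
  have hmq : mq ≤ m := le_trans (le_trans (le_max_right _ _) (le_max_left _ _)) hm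
  have hme : me ≤ m := le_trans (le_trans (le_max_left _ _) (le_max_right _ _)) hm
  have hmx' : mx ≤ m := le_trans (le_trans (le_max_right _ _) (le_max_right _ _)) hm
  have hRm := hRb m hm0
  have hr0 : 0 < r := by linarith
  have hRr : R1 ≤ r := by linarith
  have hrb : r ≤ b := by rw [hb]; linarith
  have hm1 : 1 ≤ m := h.m0_pos.trans hm0
  have ha0 : 0 < aa m := by
    unfold aa
    have : (0:ℝ) < m := by exact_mod_cast hm1
    positivity
  have ha1 : aa m ≤ 1 := by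
    unfold aa
    have : (1:ℝ) ≤ m := by exact_mod_cast hm1
    rw [div_le_one (by positivity)]
    linarith
  have hww : |w m| ≤ 1 := by
    have h1 := hwb m hm0
    rw [abs_of_pos (by linarith)]
    exact h1.2
  have hk1 := one_le_kap2 hd l lam
  set κ := Real.sqrt (kap2 d l lam) with hκ
  have hκ2 : κ ^ 2 = kap2 d l lam := Real.sq_sqrt (by linarith)
  have hκ1 : 1 ≤ κ := by
    rw [hκ]; exact Real.one_le_sqrt.2 hk1
  have hkc : kap2 d l (conj lam) = kap2 d l lam := by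
    unfold kap2; rw [RCLike.norm_conj]
  -- Theorem X at lam and conj lam
  obtain ⟨kP, hP0, hP1, hP2⟩ := hN l lam (w m) (aa m) r hww ha0 ha1 hl hRr hrb
    (le_trans (le_max_left _ _) hk) hnd1
  obtain ⟨kT, hT0, hT1, hT2⟩ := hN l (conj lam) (w m) (aa m) r hww ha0 ha1 (by simpa using hl) hRr
    hrb (by rw [hkc]; exact le_trans (le_max_left _ _) hk) (by
      rw [hkc]
      have e : ((gL d l / r ^ 2 : ℝ) : ℂ) - I * conj lam
          = conj (((gL d l / r ^ 2 : ℝ) : ℂ) + I * lam) := by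
        simp only [map_add, map_mul, Complex.conj_ofReal, Complex.conj_I]; ring
      rw [e, RCLike.norm_conj]
      exact hnd2)
  rw [hkc] at hT2
  -- exterior representation
  obtain ⟨al, be, hab⟩ := hext m hme l lam hl hlam F G hp
  set Mn := massN d F G (R m + 2 * η) with hMn
  obtain ⟨b1, b2, b3, b4⟩ := hab r hr1
  have hq0 : q m r ≠ 0 := h.ne m hm0 r
  obtain ⟨f1, f2, f3, -, -⟩ := hbd m hmq r ⟨hr0, hrb⟩
  have hCqr : ‖deriv (q m) r / q m r‖ ≤ CQ := by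
    rw [norm_div, hCQ]
    have : ‖deriv (q m) r‖ ≤ |Cq| * b :=
      f3.trans (mul_le_mul (le_abs_self _) hrb hr0.le (abs_nonneg _))
    exact div_le_div₀ (by positivity) this hcq f1
  have hκn : ‖k0 lam (gL d l / r ^ 2)‖ ≤ (1 + 1 / R1) * κ := k0_norm_le_kap hd l lam hR1 hRr
  have hκn' : ‖k0 (conj lam) (gL d l / r ^ 2)‖ ≤ (1 + 1 / R1) * κ := by
    have := k0_norm_le_kap hd l (conj lam) hR1 hRr
    rwa [hkc] at this
  have hKP : ‖kP‖ ≤ ((1 + 1 / R1) + ε / 2) * κ := by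
    have e : kP = k0 lam (gL d l / r ^ 2) + (kP - k0 lam (gL d l / r ^ 2)) := by ring
    rw [e]
    refine (norm_add_le _ _).trans ?_
    rw [add_mul]
    exact add_le_add hκn hP2
  have hKT : ‖kT‖ ≤ ((1 + 1 / R1) + ε / 2) * κ := by
    have e : kT = k0 (conj lam) (gL d l / r ^ 2) + (kT - k0 (conj lam) (gL d l / r ^ 2)) := by ring
    rw [e]
    refine (norm_add_le _ _).trans ?_
    rw [add_mul]
    exact add_le_add hκn' hT2
  have key := bdAt_of (d := d) (l := l) (lam := lam) (q := q m) (q1 := deriv (q m)) (F := F)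
    (F1 := deriv F) (G := G) (G1 := deriv G) hr0 hq0 hP1 hT1 b1 b2 b3 b4 hP2 hT2 hKP hKT hCqr
  have hMn0 : 0 ≤ Mn := by
    rw [hMn]
    unfold massN
    apply intervalIntegral.integral_nonneg
    · linarith
    · intro x hx
      have := hx.1
      positivity
  have hεκ : CQ + ε / 2 * κ ≤ ε * κ := by
    have h1 : (2 * CQ / ε) ^ 2 ≤ κ ^ 2 := by rw [hκ2]; exact le_trans (le_max_right _ _) hk
    have h2 : 2 * CQ / ε ≤ κ := (abs_le_of_sq_le_sq' h1 (by linarith)).2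
    have h3 : CQ ≤ ε / 2 * κ := by
      rw [div_le_iff₀ hε] at h2
      linarith
    linarith
  have hde : ((1 + ((1 + 1 / R1) + ε / 2) * κ) * (Real.exp (-(c * m)) * Real.sqrt Mn)) ^ 2
      * r ^ (d - 1) ≤ kap2 d l lam * Real.exp (-(c * m)) * Mn := by
    have e1 : (1 + ((1 + 1 / R1) + ε / 2) * κ) ≤ KK * κ := by
      rw [hKK]; nlinarith
    have e2 : Real.exp (-(c * m)) * (KK ^ 2 * b ^ (d - 1)) ≤ 1 := by
      have := hmx m hmx'
      calc Real.exp (-(c * m)) * (KK ^ 2 * b ^ (d - 1))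
          ≤ Real.exp (-(c * m)) * Real.exp (c * m) := by gcongr
        _ = 1 := by rw [← Real.exp_add]; simp
    have e3 : r ^ (d - 1) ≤ b ^ (d - 1) := pow_le_pow_left₀ hr0.le hrb _
    have e0 : 0 ≤ (1 + ((1 + 1 / R1) + ε / 2) * κ) := by positivity
    calc ((1 + ((1 + 1 / R1) + ε / 2) * κ) * (Real.exp (-(c * m)) * Real.sqrt Mn)) ^ 2
          * r ^ (d - 1)
        ≤ ((KK * κ) * (Real.exp (-(c * m)) * Real.sqrt Mn)) ^ 2 * b ^ (d - 1) := by gcongr
      _ = κ ^ 2 * Real.exp (-(c * m)) * (Real.sqrt Mn) ^ 2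
            * (Real.exp (-(c * m)) * (KK ^ 2 * b ^ (d - 1))) := by ring
      _ ≤ κ ^ 2 * Real.exp (-(c * m)) * (Real.sqrt Mn) ^ 2 * 1 := by gcongr
      _ = kap2 d l lam * Real.exp (-(c * m)) * Mn := by
          rw [hκ2, Real.sq_sqrt hMn0]; ring
  refine ⟨?_, ?_⟩
  · obtain ⟨ku, eu, kv, ev, g1, g2, g3, g4, g5, g6⟩ := key
    exact ⟨ku, eu, kv, ev, g1, g2, g3.trans hεκ, g4.trans hεκ, g5.trans hde, g6.trans hde⟩
  · intro hM0 hF0 hG0 r' hr'
    rw [hM0] at hab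
    simp only [Real.sqrt_zero, mul_zero] at hab
    have hal : al = 0 := by
      have h1 := (hab r hr1).1
      rw [hF0, zero_sub, norm_neg, norm_le_zero_iff] at h1
      exact (mul_eq_zero.1 h1).resolve_right hP0
    have hbe : be = 0 := by
      have h1 := (hab r hr1).2.2.1
      rw [hG0, zero_sub, norm_neg, norm_le_zero_iff] at h1
      exact (mul_eq_zero.1 h1).resolve_right (by simpa using hT0)
    have h1 := (hab r' hr').1
    have h2 := (hab r' hr').2.2.1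
    rw [hal, zero_mul, sub_zero, norm_le_zero_iff] at h1
    rw [hbe, zero_mul, sub_zero, norm_le_zero_iff] at h2
    exact ⟨h1, h2⟩

end

end Vale.Agent.P139.H607
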