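import Vale.Agent.P139.H747.UPh
import Vale.Agent.P139.H657.Close3
import Vale.Agent.P139.H607.S1Big

/-!
# P139 [S1] : the `m`-uniform coefficient facts for `close_I / close_II / s1_core` (helper607)
-/

namespace Vale.Agent.P139.H607

open Complex Set MeasureTheory Vale.Agent.P139.H498 Vale.Agent.P139.BU Vale.Agent.P139.H657
open scoped ComplexConjugate ContDiff

noncomputable section

variable {d K m0 : ℕ} {B : Set (ℝ × ℝ)} {w R : ℕ → ℝ} {q : ℕ → ℝ → ℂ}

theorem aa_bounds {m : ℕ} (hm : 1 ≤ m) : 0 < aa m ∧ aa m ≤ 1 / 2 := by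
  unfold aa
  have h1 : (1 : ℝ) ≤ m := by exact_mod_cast hm
  constructor
  · positivity
  · rw [div_le_div_iff₀ (by positivity) (by norm_num)]
    linarith

/-- All `m`-uniform coefficient facts on `(0,b]`, `b ≤ R m + δ0`. -/
theorem up_coef (h : UP d B m0 w R q) (hd : 3 ≤ d) :
    ∃ C δ0 η : ℝ, 1 ≤ C ∧ 0 < δ0 ∧ 0 < η ∧ ∃ m1 : ℕ, m0 ≤ m1 ∧ ∀ m, m1 ≤ m →
      2 * η ≤ R m ∧ R m + δ0 ≤ C ∧ 1 / C ≤ (d : ℝ) / 4 - aa m ∧ (d : ℝ) / 4 - aa m ≤ C ∧
      ∀ (l : ℕ) (b : ℝ), R m ≤ b → b ≤ R m + δ0 →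
      Coef C (2 * m) (gL d l) b (gX (q m) (deriv (q m))) (gVA d m l (q m)) (gVB d l)
        (gX' (q m) (deriv (q m)) (q2of d m (w m) (q m) (deriv (q m))))
        (gVA' d m l (q m) (deriv (q m))) (gVB' d l) ∧
      (∀ δ : ℝ, b ≤ R m + δ →
        ∃ M1 : ℝ, Layer C (2 * m) η δ b (gM d (q m)) (gVA d m l (q m)) (gVB d l) η (R m) M1) ∧
      (∀ r ∈ Icc η b, 1 / C ≤ gM d (q m) r ∧ gM d (q m) r ≤ C ∧
        |gM' d (q m) (deriv (q m)) r| ≤ C * gM d (q m) r) ∧
      (∀ r ∈ Ioc 0 b, |gX (q m) (deriv (q m)) r| ≤ C) := by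
  obtain ⟨R1, hR1, R2, hRb⟩ := h.Rbd
  have hR12 : R1 ≤ R2 := (hRb m0 le_rfl).1.trans (hRb m0 le_rfl).2
  obtain ⟨δa, hδa, ma, hma, HX⟩ := h.gX_near
  obtain ⟨δb, hδb, Cp, hCp, mb, hmb, HP⟩ := h.gP'_le
  obtain ⟨cc, hcc, HN⟩ := h.normSq_pow_ge
  set δ0 : ℝ := min δa δb with hδ0
  have hδ00 : 0 < δ0 := lt_min hδa hδb
  set bb : ℝ := R2 + δ0 with hbb
  have hbb0 : R1 / 2 ≤ bb := by rw [hbb]; linarith
  obtain ⟨M1, hM1, M2, hM2, CM, hCM, mc, hmc, HM⟩ := h.gM_Icc (a := R1 / 2) (b := bb)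
    (by positivity) hbb0
  have hM12 : M1 ≤ M2 := by
    obtain ⟨g1, g2, -⟩ := HM mc le_rfl bb ⟨hbb0, le_rfl⟩
    exact g1.trans g2
  set C : ℝ := 4 + bb + 2 * Cp + 1 / cc + M2 / M1 + M2 + 1 / M1 + CM + d with hC
  have p1 : 0 < 1 / cc := by positivity
  have p2 : 0 < M2 / M1 := by positivity
  have p3 : 0 < 1 / M1 := by positivity
  have p4 : 0 < bb := by rw [hbb]; linarith
  have p5 : (3 : ℝ) ≤ d := by exact_mod_cast hd
  have hC4 : 4 ≤ C := by rw [hC]; linarith
  have hC0 : 0 < C := by linarith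
  refine ⟨C, δ0, R1 / 2, by linarith, hδ00, by positivity, max ma (max mb mc),
    hma.trans (le_max_left _ _), fun m hm => ?_⟩
  have hma' : ma ≤ m := (le_max_left _ _).trans hm
  have hmb' : mb ≤ m := ((le_max_left _ _).trans (le_max_right _ _)).trans hm
  have hmc' : mc ≤ m := ((le_max_right _ _).trans (le_max_right _ _)).trans hm
  have hm0 : m0 ≤ m := hma.trans hma'
  have hm1 : 1 ≤ m := h.m0_pos.trans hm0
  have hmr : (1 : ℝ) ≤ m := by exact_mod_cast hm1
  have hRm := hRb m hm0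
  obtain ⟨a1, a2⟩ := aa_bounds hm1
  have hC14 : 1 / C ≤ 1 / 4 := one_div_le_one_div_of_le (by norm_num) hC4
  refine ⟨by linarith [hRm.1], by rw [hC, hbb] at *; linarith [hRm.2], by linarith, by rw [hC]; linarith, ?_⟩
  intro l b hRb1 hbR
  have hba : b ≤ R m + δa := hbR.trans (by gcongr; exact min_le_left _ _)
  have hbb' : b ≤ R m + δb := hbR.trans (by gcongr; exact min_le_right _ _)
  have hbb2 : b ≤ bb := by rw [hbb]; linarith [hRm.2]
  have hL := gL_nonneg (d := d) (by omega) l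
  refine ⟨?_, ?_, ?_, ?_⟩
  · refine ⟨by linarith, by linarith, hL, fun r hr => rfl, fun r hr => rfl, ?_, ?_, ?_, ?_, ?_⟩
    · intro r hr
      simp only [gVA, gVB]
      have := Complex.normSq_nonneg (q m r)
      have : 0 ≤ 2 * (m : ℝ) * normSq (q m r) ^ m := by positivity
      linarith
    · intro r hr
      have g := HP m hmb' r ⟨hr.1, hr.2.trans hbb'⟩
      have hn : 0 ≤ normSq (q m r) ^ m := pow_nonneg (Complex.normSq_nonneg _) _
      simp only [gVA, gVB, gVA', add_sub_cancel_left]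
      have e1 : 2 * (m : ℝ) * gP' m (q m) (deriv (q m)) r ≤ 2 * Cp * normSq (q m r) ^ m := by
        calc 2 * (m : ℝ) * gP' m (q m) (deriv (q m)) r
            ≤ 2 * (m : ℝ) * (Cp / m * normSq (q m r) ^ m) := by gcongr
          _ = 2 * Cp * normSq (q m r) ^ m := by field_simp
      have e2 : C / (2 * (m : ℝ)) * (2 * m * normSq (q m r) ^ m) = C * normSq (q m r) ^ m := by
        field_simp
      rw [e2]
      refine e1.trans (mul_le_mul_of_nonneg_right ?_ hn)
      rw [hC]; linarith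
    · intro r hr
      obtain ⟨-, -, g3, -⟩ := HX m hma' r ⟨hr.1, hr.2.trans hba⟩
      linarith
    · intro r hr
      obtain ⟨g1, -, -, -⟩ := HX m hma' r ⟨hr.1, hr.2.trans hba⟩
      refine le_trans ?_ g1
      have := hr.1
      gcongr
    · intro r hr
      obtain ⟨-, g2, -, -⟩ := HX m hma' r ⟨hr.1, hr.2.trans hba⟩
      have := hr.2.trans hbb2
      refine g2.trans ?_
      rw [hC]; linarith
  · intro δ hδ
    refine ⟨M1, by positivity, by linarith [hRm.1], hRb1, by linarith, ?_, hM1, ?_, ?_⟩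
    · rw [hC]; linarith
    · intro x hx
      obtain ⟨g1, g2, -⟩ := HM m hmc' x ⟨hx.1, hx.2.trans hbb2⟩
      refine ⟨g1, g2.trans ?_⟩
      have : M2 = M2 / M1 * M1 := by field_simp
      rw [this]
      refine mul_le_mul_of_nonneg_right ?_ hM1.le
      rw [hC]; linarith
    · intro r hr
      have g := HN m hm0 r ⟨hr.1.le, hr.2⟩
      simp only [gVA, gVB, add_sub_cancel_left]
      have e1 : 1 / C ≤ cc := by
        rw [div_le_iff₀ hC0]
        have : cc * (1 / cc) = 1 := by field_simp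
        calc 1 = cc * (1 / cc) := this.symm
          _ ≤ cc * C := by
            refine mul_le_mul_of_nonneg_left ?_ hcc.le
            rw [hC]; linarith
      calc 2 * (m : ℝ) / C = 2 * m * (1 / C) := by ring
        _ ≤ 2 * m * normSq (q m r) ^ m := by
          refine mul_le_mul_of_nonneg_left (e1.trans g) (by positivity)
  · intro r hr
    obtain ⟨g1, g2, g3⟩ := HM m hmc' r ⟨hr.1, hr.2.trans hbb2⟩
    have hM0 : 0 ≤ gM d (q m) r := hM1.le.trans g1
    refine ⟨?_, ?_, ?_⟩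
    · refine le_trans ?_ g1
      rw [div_le_iff₀ hC0]
      have : M1 * (1 / M1) = 1 := by field_simp
      calc 1 = M1 * (1 / M1) := this.symm
        _ ≤ M1 * C := by
          refine mul_le_mul_of_nonneg_left ?_ hM1.le
          rw [hC]; linarith
    · refine g2.trans ?_
      rw [hC]; linarith
    · refine g3.trans (mul_le_mul_of_nonneg_right ?_ hM0)
      rw [hC]; linarith
  · intro r hr
    obtain ⟨g1, g2, -, -⟩ := HX m hma' r ⟨hr.1, hr.2.trans hba⟩
    have h0 := hr.1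
    have := hr.2.trans hbb2
    rw [abs_of_nonneg (by linarith)]
    refine g2.trans ?_
    rw [hC]; linarith

end

end Vale.Agent.P139.H607
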